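import Vale.Agent.P110.Exist.Analysis.Defs

/-! Dilated periodic functions are nearly independent (`PROOF.md`, N.3). -/

namespace Vale.Agent.P110.Exist.Analysis

open Finset MeasureTheory

/-- The mean of `f θ * G (L θ)` is the product of the means up to `2K/L`. -/
theorem equi_step {f G : ℝ → ℝ} {K : ℝ} {L : ℕ} (hL : 0 < L) (hf : Continuous f)
    (hG : Continuous G) (hfl : ∀ x y, |f x - f y| ≤ K * |x - y|)
    (hGp : Function.Periodic G 1) (hGb : ∀ x, |G x| ≤ 1) :
    |(∫ θ in (0 : ℝ)..1, f θ * G ((L : ℝ) * θ)) -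
      (∫ θ in (0 : ℝ)..1, f θ) * ∫ θ in (0 : ℝ)..1, G θ| ≤ 2 * K / L := by
  have hL' : (0 : ℝ) < L := Nat.cast_pos.2 hL
  have hK : 0 ≤ K := by
    have := (abs_nonneg (f 1 - f 0)).trans (hfl 1 0)
    simpa using this
  set I := ∫ θ in (0 : ℝ)..1, G θ with hI
  have hIb : |I| ≤ 1 := by
    have := intervalIntegral.norm_integral_le_of_norm_le_const (a := (0 : ℝ)) (b := 1) (C := 1)
      (f := G) (fun x _ => by simpa [Real.norm_eq_abs] using hGb x)
    simpa [Real.norm_eq_abs] using this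
  have hc : Continuous fun θ => f θ * G ((L : ℝ) * θ) := hf.mul (hG.comp (continuous_const_mul _))
  have split : ∀ φ : ℝ → ℝ, Continuous φ → ∫ θ in (0 : ℝ)..1, φ θ =
      ∑ k ∈ range L, ∫ θ in ((k : ℝ) / L)..((k + 1 : ℕ) : ℝ) / L, φ θ := fun φ hφ => by
    rw [intervalIntegral.sum_integral_adjacent_intervals (a := fun k : ℕ => (k : ℝ) / L)
      fun k _ => hφ.intervalIntegrable _ _]
    rw [Nat.cast_zero, zero_div, div_self hL'.ne']
  rw [split _ hc, split _ hf, sum_mul, ← sum_sub_distrib]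
  refine (abs_sum_le_sum_abs _ _).trans ?_
  calc _ ≤ ∑ _k ∈ range L, 2 * K / L * (1 / L) := sum_le_sum fun k _ => ?_
    _ = 2 * K / L := by rw [sum_const, card_range, nsmul_eq_mul]; field_simp
  set x0 : ℝ := (k : ℝ) / L with hx0
  set x1 : ℝ := ((k + 1 : ℕ) : ℝ) / L with hx1
  have hlen : x1 - x0 = 1 / L := by rw [hx0, hx1]; push_cast; ring
  have hle : x0 ≤ x1 := by
    rw [← sub_nonneg, hlen]; positivity
  have hdev : ∀ θ ∈ Set.uIoc x0 x1, |f θ - f x0| ≤ K / L := by
    intro θ hθ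
    rw [Set.uIoc_of_le hle] at hθ
    refine (hfl θ x0).trans ?_
    rw [div_eq_mul_inv, abs_of_nonneg (sub_nonneg.2 hθ.1.le)]
    refine mul_le_mul_of_nonneg_left ?_ hK
    rw [inv_eq_one_div]
    linarith [hθ.2]
  have hGI : ∫ θ in x0..x1, G ((L : ℝ) * θ) = I / L := by
    rw [intervalIntegral.integral_comp_mul_left _ hL'.ne', hx0, hx1,
      mul_div_cancel₀ _ hL'.ne', mul_div_cancel₀ _ hL'.ne', smul_eq_mul]
    push_cast
    rw [hGp.intervalIntegral_add_eq (k : ℝ) 0, zero_add, hI, inv_mul_eq_div]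
  have i1 : |∫ θ in x0..x1, (f θ - f x0) * G ((L : ℝ) * θ)| ≤ K / L * (1 / L) := by
    have := intervalIntegral.norm_integral_le_of_norm_le_const (a := x0) (b := x1) (C := K / L)
      (f := fun θ => (f θ - f x0) * G ((L : ℝ) * θ)) (fun θ hθ => by
        rw [Real.norm_eq_abs, abs_mul]
        exact (mul_le_of_le_one_right (abs_nonneg _) (hGb _)).trans (hdev θ hθ))
    rw [Real.norm_eq_abs, hlen, abs_of_nonneg (by positivity : (0 : ℝ) ≤ 1 / L)] at this
    exact this
  have i2 : |∫ θ in x0..x1, (f θ - f x0)| ≤ K / L * (1 / L) := by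
    have := intervalIntegral.norm_integral_le_of_norm_le_const (a := x0) (b := x1) (C := K / L)
      (f := fun θ => f θ - f x0) (fun θ hθ => by simpa [Real.norm_eq_abs] using hdev θ hθ)
    rw [Real.norm_eq_abs, hlen, abs_of_nonneg (by positivity : (0 : ℝ) ≤ 1 / L)] at this
    exact this
  have hcG : Continuous fun θ => G ((L : ℝ) * θ) := hG.comp (continuous_const_mul _)
  have e1 : ∫ θ in x0..x1, (f θ - f x0) * G ((L : ℝ) * θ) =
      (∫ θ in x0..x1, f θ * G ((L : ℝ) * θ)) - f x0 * (I / L) := by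
    rw [← hGI, ← intervalIntegral.integral_const_mul, ← intervalIntegral.integral_sub
      (hc.intervalIntegrable _ _) ((hcG.const_mul (f x0)).intervalIntegrable _ _)]
    congr 1
    funext θ
    ring
  have e2 : ∫ θ in x0..x1, (f θ - f x0) = (∫ θ in x0..x1, f θ) - f x0 * (1 / L) := by
    rw [intervalIntegral.integral_sub (hf.intervalIntegrable _ _) intervalIntegrable_const,
      intervalIntegral.integral_const, hlen, smul_eq_mul, mul_comm]
  calc |(∫ θ in x0..x1, f θ * G ((L : ℝ) * θ)) - (∫ θ in x0..x1, f θ) * I|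
      = |(∫ θ in x0..x1, (f θ - f x0) * G ((L : ℝ) * θ)) -
          (∫ θ in x0..x1, (f θ - f x0)) * I| := by rw [e1, e2]; congr 1; ring
    _ ≤ K / L * (1 / L) + K / L * (1 / L) := by
        refine (abs_sub _ _).trans (add_le_add i1 ?_)
        rw [abs_mul]
        exact (mul_le_of_le_one_right (abs_nonneg _) hIb).trans i2
    _ = 2 * K / L * (1 / L) := by ring

theorem equiStatement : EquiStatement := by
  intro D
  induction D with
  | zero => intro f K L _ _ _; simp
  | succ D ih =>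
    intro f K L hL hf hl
    have hcont : ∀ i, Continuous (f i) := fun i =>
      (LipschitzWith.of_dist_le' (K := K) fun a b => by
        simpa [Real.dist_eq] using hl i a b).continuous
    let G : ℝ → ℝ := fun x => ∏ i : Fin D, f i.succ ((L : ℝ) ^ (i : ℕ) * x)
    have hG : Continuous G :=
      continuous_finsetProd _ fun i _ => (hcont _).comp (continuous_const_mul _)
    have hGp : Function.Periodic G 1 := fun x => prod_congr rfl fun i _ => by
      rw [mul_add, mul_one, ← Nat.cast_pow]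
      have hp : Function.Periodic (f i.succ) 1 := fun y => (hf _ y).1
      simpa using (hp.nat_mul (L ^ (i : ℕ))) (((L ^ (i : ℕ) : ℕ) : ℝ) * x)
    have hG0 : ∀ x, 0 ≤ G x ∧ G x ≤ 1 := fun x =>
      ⟨prod_nonneg fun i _ => (hf _ _).2.1,
        prod_le_one (fun i _ => (hf _ _).2.1) fun i _ => (hf _ _).2.2⟩
    have h1 := equi_step hL (hcont 0) hG (hl 0) hGp
      (fun x => abs_le.2 ⟨by linarith [(hG0 x).1], (hG0 x).2⟩)
    have h2 := ih (fun i => f i.succ) K L hL (fun i => hf i.succ) (fun i => hl i.succ)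
    have hfb : |∫ θ in (0 : ℝ)..1, f 0 θ| ≤ 1 := by
      have := intervalIntegral.norm_integral_le_of_norm_le_const (a := (0 : ℝ)) (b := 1) (C := 1)
        (f := f 0) (fun x _ => by
          rw [Real.norm_eq_abs, abs_le]
          exact ⟨by linarith [(hf 0 x).2.1], (hf 0 x).2.2⟩)
      simpa [Real.norm_eq_abs] using this
    have e : ∀ θ : ℝ, ∏ i : Fin (D + 1), f i ((L : ℝ) ^ (i : ℕ) * θ) =
        f 0 θ * G ((L : ℝ) * θ) := fun θ => by
      rw [Fin.prod_univ_succ]
      simp [G, pow_succ, mul_assoc]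
    rw [Fin.prod_univ_succ (f := fun i => ∫ θ in (0 : ℝ)..1, f i θ)]
    simp only [e]
    refine (abs_sub_le _ ((∫ θ in (0 : ℝ)..1, f 0 θ) * ∫ θ in (0 : ℝ)..1, G θ) _).trans ?_
    rw [← mul_sub, abs_mul]
    calc _ ≤ 2 * K / L + 1 * (2 * D * K / L) :=
          add_le_add h1 (mul_le_mul hfb h2 (abs_nonneg _) zero_le_one)
      _ = 2 * ((D + 1 : ℕ) : ℝ) * K / L := by push_cast; ring

end Vale.Agent.P110.Exist.Analysis
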