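import Vale.Agent.P110.Exist.Analysis.Defs
import Vale.Agent.P110.Exist.Glue

/-! The unimodular `U` and its frequency from node data on a periodic grid (`PROOF.md`, N.4). -/

namespace Vale.Agent.P110.Exist.Analysis

open scoped ComplexConjugate

/-- First order Taylor bound for a function with Lipschitz derivative. -/
theorem taylor_one {F f : ℝ → ℝ} {K : ℝ} (hd : ∀ x, HasDerivAt F (f x) x)
    (hlip : ∀ x y, |f y - f x| ≤ K * |y - x|) (θ t : ℝ) :
    |F (θ + t) - F θ - f θ * t| ≤ K * t ^ 2 / 2 := by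
  have main : ∀ (G g : ℝ → ℝ), (∀ x, HasDerivAt G (g x) x) →
      (∀ x, |g x - g 0| ≤ K * |x|) → ∀ u, 0 ≤ u → |G u - G 0 - g 0 * u| ≤ K * u ^ 2 / 2 := by
    intro G g hG hg u hu
    have h' : ∀ x, HasDerivAt (fun x => G x - G 0 - g 0 * x) (g x - g 0) x := fun x =>
      (((hG x).sub_const (G 0)).fun_sub ((hasDerivAt_id x).const_mul (g 0))).congr_deriv (by simp)
    have hb : ∀ x, HasDerivAt (fun x => K * x ^ 2 / 2) (K * x) x := fun x =>
      (((hasDerivAt_pow 2 x).const_mul K).div_const 2).congr_deriv (by push_cast; ring)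
    have h := image_norm_le_of_norm_deriv_right_le_deriv_boundary (a := (0 : ℝ)) (b := u)
      (fun x _ => (h' x).continuousAt.continuousWithinAt)
      (fun x _ => (h' x).hasDerivWithinAt) (B := fun x => K * x ^ 2 / 2) (by simp) hb
      (fun x hx => by
        have := hg x
        rw [abs_of_nonneg hx.1] at this
        simpa [Real.norm_eq_abs] using this) (Set.right_mem_Icc.2 hu)
    simpa [Real.norm_eq_abs] using h
  rcases le_total 0 t with ht | ht
  · have h := main (fun x => F (θ + x)) (fun x => f (θ + x))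
      (fun x => (hd (θ + x)).comp_const_add θ x)
      (fun x => by simpa using hlip θ (θ + x)) t ht
    simpa using h
  · have h := main (fun x => F (θ - x)) (fun x => -f (θ - x))
      (fun x => ((hd (θ - x)).comp x ((hasDerivAt_id x).const_sub θ)).congr_deriv (by simp))
      (fun x => by
        have := hlip (θ - x) θ
        rw [show -f (θ - x) - -f (θ - 0) = f θ - f (θ - x) by rw [sub_zero]; ring]
        simpa using this) (-t) (neg_nonneg.2 ht)
    simpa using h

/-- The derivative of a phase that is odd mod 1 is even. -/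
theorem even_of_odd_primitive {F f : ℝ → ℝ} (hd : ∀ x, HasDerivAt F (f x) x)
    (hodd : ∀ x, ∃ n : ℤ, F (-x) + F x = n) (θ : ℝ) : f (-θ) = f θ := by
  have hc : Continuous fun x => F (-x) + F x :=
    continuous_iff_continuousAt.2 fun x =>
      (((hd (-x)).comp x (hasDerivAt_neg x)).fun_add (hd x)).continuousAt
  have hint : ∀ x, F (-x) + F x ∈ Set.range (fun n : ℤ => (n : ℝ)) := fun x => by
    obtain ⟨n, hn⟩ := hodd x
    exact ⟨n, hn.symm⟩
  have hconst : ∀ x, F (-x) + F x = F (-0) + F 0 := by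
    intro x
    by_contra hne
    obtain ⟨n, hn⟩ := hint x
    obtain ⟨n0, hn0⟩ := hint 0
    simp only at hn hn0
    rw [← hn, ← hn0] at hne
    have hne' : n ≠ n0 := fun h => hne (by rw [h])
    have key : ∀ a b : ℤ, a < b → ((a : ℝ) + 1 / 2) ∈ Set.Icc (a : ℝ) b := fun a b hab => by
      have : (a : ℝ) + 1 ≤ b := by exact_mod_cast hab
      exact ⟨by linarith, by linarith⟩
    have hrange := isPreconnected_univ.image (fun x => F (-x) + F x) hc.continuousOn
    have hoc := hrange.ordConnected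
    have mx : (n : ℝ) ∈ (fun x => F (-x) + F x) '' Set.univ := ⟨x, trivial, hn.symm⟩
    have m0 : (n0 : ℝ) ∈ (fun x => F (-x) + F x) '' Set.univ := ⟨0, trivial, hn0.symm⟩
    rcases lt_or_gt_of_ne hne' with h | h
    · obtain ⟨z, -, hz⟩ := hoc.out mx m0 (key n n0 h)
      obtain ⟨k, hk⟩ := hint z
      simp only at hk hz
      have : (2 * k : ℝ) = ((2 * n + 1 : ℤ) : ℝ) := by push_cast; linarith
      have : 2 * k = 2 * n + 1 := by exact_mod_cast this
      omega
    · obtain ⟨z, -, hz⟩ := hoc.out m0 mx (key n0 n h)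
      obtain ⟨k, hk⟩ := hint z
      simp only at hk hz
      have : (2 * k : ℝ) = ((2 * n0 + 1 : ℤ) : ℝ) := by push_cast; linarith
      have : 2 * k = 2 * n0 + 1 := by exact_mod_cast this
      omega
  have h1 := ((hd (-θ)).comp θ (hasDerivAt_neg θ)).fun_add (hd θ)
  have h2 : HasDerivAt (fun x => F (-x) + F x) 0 θ := by
    rw [funext hconst]; exact hasDerivAt_const θ _
  have := h1.unique h2
  linarith

/-- `U = e(Ψ)` and `ν = Ψ'` from node data. -/
theorem glueU (M : ℕ) (hM : 0 < M) (v s : ℤ → ℝ) (A B : ℝ)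
    (hs : ∀ k, A ≤ s k ∧ s k ≤ B)
    (hvper : ∀ k, ∃ n : ℤ, v (k + M) = v k + n) (hsper : ∀ k, s (k + M) = s k)
    (hvodd : ∀ k, ∃ n : ℤ, v (-k) + v k = n) (hseven : ∀ k, s (-k) = s k) :
    ∃ (U : ℝ → ℂ) (ν : ℝ → ℝ),
      (∀ θ, ν (-θ) = ν θ) ∧
      (∀ θ, ‖U θ‖ = 1 ∧ U (θ + 1) = U θ ∧ U (-θ) = conj (U θ)) ∧
      (∀ θ, A ≤ ν θ ∧ ν θ ≤ B + 2 * M) ∧
      (∀ θ t, ‖U (θ + t) - U θ * fe (ν θ * t)‖ ≤
        Real.pi * ((B - A) * M + 6 * (M : ℝ) ^ 2) * t ^ 2) ∧
      (∀ k : ℤ, U ((k : ℝ) / M) = fe (v k) ∧ ν ((k : ℝ) / M) = s k) ∧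
      (∀ k : ℤ, (∃ n : ℤ, v (k + 1) - v k - (s k + s (k + 1)) / (2 * M) = n) →
        ∀ t : ℝ, 0 ≤ t → t ≤ 1 / M →
          U ((k : ℝ) / M + t) = fe (v k + s k * t + (s (k + 1) - s k) * M * t ^ 2 / 2)) := by
  obtain ⟨Psi, om, hd, hrange, hlip, hper, hodd, hnode, hcell⟩ :=
    Curve.glue M hM v s A B hs hvper hsper hvodd hseven
  set K : ℝ := (B - A) * M + 6 * (M : ℝ) ^ 2
  refine ⟨fun θ => fe (Psi θ), om, even_of_odd_primitive hd hodd, fun θ => ⟨?_, ?_, ?_⟩, hrange, ?_, fun k => ?_, ?_⟩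
  · exact norm_ee _
  · obtain ⟨n, hn⟩ := hper θ
    simp only [fe_eq_ee, hn, ee_add_int]
  · obtain ⟨n, hn⟩ := hodd θ
    simp only [fe_eq_ee]
    rw [show Psi (-θ) = -Psi θ + n by linarith, ee_add_int, ee_neg]
  · intro θ t
    have key : |Psi (θ + t) - Psi θ - om θ * t| ≤ K * t ^ 2 / 2 := taylor_one hd hlip θ t
    simp only [fe_eq_ee]
    rw [show Psi (θ + t) = (Psi θ + om θ * t) + (Psi (θ + t) - Psi θ - om θ * t) by ring, ee_add,
      ← ee_add (Psi θ)]
    rw [show ee (Psi θ + om θ * t) * ee (Psi (θ + t) - Psi θ - om θ * t) - ee (Psi θ + om θ * t) =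
      ee (Psi θ + om θ * t) * (ee (Psi (θ + t) - Psi θ - om θ * t) - 1) by ring,
      norm_mul, norm_ee, one_mul]
    refine (norm_ee_sub_one_le _).trans ?_
    calc 2 * Real.pi * |Psi (θ + t) - Psi θ - om θ * t| ≤ 2 * Real.pi * (K * t ^ 2 / 2) :=
          mul_le_mul_of_nonneg_left key (by positivity)
      _ = Real.pi * K * t ^ 2 := by ring
  · obtain ⟨h1, n, hn⟩ := hnode k
    exact ⟨by simp only [fe_eq_ee, hn, ee_add_int], h1⟩
  · intro k hk t h0 h1
    obtain ⟨n, hn⟩ := hcell k hk t h0 h1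
    simp only [fe_eq_ee, hn, ee_add_int]

end Vale.Agent.P110.Exist.Analysis
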