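import Vale.Agent.P110.Exist.Analysis.Nodes
import Vale.Agent.P110.Exist.Analysis.Glue
import Vale.Agent.P110.Exist.Analysis.Equi

/-! `AnalysisGoal` from the expansion (`PROOF.md`, section N). -/

namespace Vale.Agent.P110.Exist.Analysis

open Finset Filter MeasureTheory
open scoped BigOperators ComplexConjugate Topology

variable {κ : ℝ} {ι : Type} [Fintype ι] [DecidableEq ι] (d : Design κ ι)

lemma continuous_envB {μ K : ℝ} (hμ : 0 < μ) (hK : 0 ≤ K)
    (hwin : ∀ x y, |win μ x - win μ y| ≤ K * |x - y|) {L : ℕ} (hL : 0 < L) {b : Box d}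
    (hb : b ∈ boxes d) : Continuous fun θ => envB d μ L b θ := by
  refine (LipschitzWith.of_dist_le'
    (K := (∑ i, 2 * (K * scl d b i)) * (L : ℝ) ^ (Fintype.card ι - 1)) fun x y => ?_).continuous
  simpa [Real.dist_eq] using envB_lip d hμ hK hwin hL hb x y

/-- The mean square of the envelope of a box. -/
lemma integral_envB_sq {μ K : ℝ} (hμ : 0 < μ) (hμ' : μ < 1 / 4) (hK : 0 ≤ K)
    (hwin : ∀ x y, |win μ x - win μ y| ≤ K * |x - y|) {L : ℕ} (hL : 0 < L) {b : Box d}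
    (hb : b ∈ boxes d) :
    (1 - 4 * μ) ^ Fintype.card ι * ∏ i, (scl d b i)⁻¹
        - 2 * Fintype.card ι * (4 * K * ∑ i, scl d b i) / L
      ≤ ∫ θ in (0 : ℝ)..1, envB d μ L b θ ^ 2 := by
  have hq := one_le_scl d hb
  set f : Fin (Fintype.card ι) → ℝ → ℝ := fun k x =>
    pwin μ (scl d b ((idx d).symm k)) (x - shf d b ((idx d).symm k)) ^ 2 with hf
  have hE := equiStatement (Fintype.card ι) f (4 * K * ∑ i, scl d b i) L hL
    (fun k x => ⟨by simp only [hf]; rw [add_sub_right_comm, pwin_periodic], sq_nonneg _,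
      pow_le_one₀ (win_nonneg _ _) (win_le_one _ _)⟩)
    (fun k x y => by
      set q := scl d b ((idx d).symm k)
      have h1 := pwin_lip hμ hK hwin (hq ((idx d).symm k)) (x - shf d b ((idx d).symm k))
        (y - shf d b ((idx d).symm k))
      rw [sub_sub_sub_cancel_right] at h1
      have hqS : q ≤ ∑ i, scl d b i :=
        single_le_sum (f := fun i => scl d b i) (fun i _ => le_trans zero_le_one (hq i)) (mem_univ _)
      have ha : |pwin μ q (x - shf d b ((idx d).symm k)) + pwin μ q (y - shf d b ((idx d).symm k))|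
          ≤ 2 := by
        simp only [pwin]
        rw [abs_of_nonneg (add_nonneg (win_nonneg _ _) (win_nonneg _ _))]
        exact (add_le_add (win_le_one _ _) (win_le_one _ _)).trans_eq one_add_one_eq_two
      simp only [hf]
      rw [sq_sub_sq, abs_mul]
      refine (mul_le_mul ha h1 (abs_nonneg _) zero_le_two).trans ?_
      rw [← mul_assoc]
      refine mul_le_mul_of_nonneg_right ?_ (abs_nonneg _)
      nlinarith [mul_le_mul_of_nonneg_left hqS hK])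
  have e : ∀ θ, envB d μ L b θ ^ 2 = ∏ k, f k ((L : ℝ) ^ (k : ℕ) * θ) := fun θ => by
    rw [envB, ← prod_pow, ← (idx d).symm.prod_comp]
    refine prod_congr rfl fun k _ => ?_
    simp only [hf, pos, pwin, expo, Equiv.apply_symm_apply]
  simp only [← e] at hE
  have hprod : (1 - 4 * μ) ^ Fintype.card ι * ∏ i, (scl d b i)⁻¹
      ≤ ∏ k, ∫ θ in (0 : ℝ)..1, f k θ := by
    rw [← (idx d).symm.prod_comp (fun i => (scl d b i)⁻¹),
      show (1 - 4 * μ) ^ Fintype.card ι = ∏ _k : Fin (Fintype.card ι), (1 - 4 * μ) by simp,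
      ← prod_mul_distrib]
    exact prod_le_prod (fun k _ => mul_nonneg (by linarith)
      (inv_nonneg.2 (le_trans zero_le_one (hq _))))
      fun k _ => integral_pwin_sq hμ hμ' hK hwin (hq _) _
  linarith [(abs_le.1 hE).1]

/-- The mean square of `r`. -/
lemma integral_rFun_sq {μ K : ℝ} (hμ : 0 < μ) (hμ' : μ < 1 / 4) (hK : 0 ≤ K)
    (hwin : ∀ x y, |win μ x - win μ y| ≤ K * |x - y|) {L : ℕ} (hL : 0 < L) :
    (1 - 4 * μ) ^ Fintype.card ι * (1 - κ)
        - (∑ b ∈ boxes d, 4 * Fintype.card ι * heightB d b ^ 2 * (4 * K * ∑ i, scl d b i)) / L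
      ≤ ∫ θ in (0 : ℝ)..1, rFun d μ L θ ^ 2 := by
  have hc : ∀ b ∈ boxes d, Continuous fun θ => heightB d b ^ 2 * envB d μ L b θ ^ 2 := fun b hb =>
    continuous_const.mul ((continuous_envB d hμ hK hwin hL hb).pow 2)
  set G : ℝ → ℝ := fun θ => ∑ b ∈ boxes d, heightB d b ^ 2 * envB d μ L b θ ^ 2 with hG
  have hGc : Continuous G := continuous_finsetSum _ hc
  have hGp : Function.Periodic G 1 := fun θ => by
    simp only [hG]
    exact sum_congr rfl fun b _ => by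
      have := envB_periodic d μ L b θ 1
      push_cast at this
      rw [this]
  have hrc : Continuous fun θ => rFun d μ L θ := by
    simp only [rFun, plusR]
    exact (continuous_finsetSum _ fun b hb =>
      continuous_const.mul (continuous_envB d hμ hK hwin hL hb)).add
      (continuous_finsetSum _ fun b hb =>
        continuous_const.mul ((continuous_envB d hμ hK hwin hL hb).comp continuous_neg))
  have hneg : ∫ θ in (0 : ℝ)..1, G (-θ) = ∫ θ in (0 : ℝ)..1, G θ := by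
    rw [intervalIntegral.integral_comp_neg, neg_zero]
    have := hGp.intervalIntegral_add_eq (-1) 0
    rw [neg_add_cancel, zero_add] at this
    exact this
  have h1 : 2 * ∫ θ in (0 : ℝ)..1, G θ ≤ ∫ θ in (0 : ℝ)..1, rFun d μ L θ ^ 2 := by
    rw [two_mul]
    nth_rewrite 2 [← hneg]
    rw [← intervalIntegral.integral_add (hGc.intervalIntegrable _ _)
      ((hGc.comp' continuous_neg).intervalIntegrable _ _)]
    exact intervalIntegral.integral_mono_on zero_le_one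
      ((hGc.add (hGc.comp' continuous_neg)).intervalIntegrable _ _)
      ((hrc.pow 2).intervalIntegrable _ _) fun θ _ => rFun_sq_ge d μ L θ
  refine le_trans ?_ h1
  simp only [hG]
  rw [intervalIntegral.integral_finsetSum fun b hb => (hc b hb).intervalIntegrable _ _, mul_sum]
  simp only [intervalIntegral.integral_const_mul]
  have hJ : (0 : ℝ) < (d.J : ℝ) ^ Fintype.card ι := pow_pos (Nat.cast_pos.2 d.J_pos) _
  have hen : 1 - κ ≤ ∑ b ∈ boxes d, 2 * (heightB d b ^ 2 * ∏ i, (scl d b i)⁻¹) := by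
    rw [sum_congr rfl fun b hb => height_mul_vol d hb, ← sum_div, le_div_iff₀ hJ, ← energy_boxes]
    exact d.energy
  have h4 : 0 ≤ (1 - 4 * μ) ^ Fintype.card ι := pow_nonneg (by linarith) _
  refine le_trans (sub_le_sub_right (mul_le_mul_of_nonneg_left hen h4) _) ?_
  rw [mul_sum, sum_div, ← sum_sub_distrib]
  refine sum_le_sum fun b hb => ?_
  have := mul_le_mul_of_nonneg_left (integral_envB_sq d hμ hμ' hK hwin hL hb)
    (show 0 ≤ 2 * heightB d b ^ 2 by positivity)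
  refine le_trans (le_of_eq ?_) (this.trans_eq (mul_assoc _ _ _))
  ring

lemma eventually_div_le (C : ℝ) {c : ℝ} (hc : 0 < c) :
    ∀ᶠ L : ℕ in atTop, C / L < c :=
  (tendsto_const_div_atTop_nhds_zero_nat C).eventually (gt_mem_nhds hc)

/-- The slope range and the grid give the constants of `Core`. -/
lemma range_bounds {κ ε N M A : ℝ} (hκ : 0 < κ) (hε0 : 0 ≤ ε) (hε : ε ≤ κ / 64) (hε1 : ε ≤ 1)
    (hN : 0 ≤ N) (hM0 : 0 ≤ M) (hM : M ≤ ε * N) (_hA : A ≤ (1 + κ) * N) (hA0 : 0 ≤ A)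
    (hκ1 : A ≤ 2 * N) :
    0 + 2 * M ≤ κ * N ∧ Real.pi * ((0 - -A) * M + 6 * M ^ 2) ≤ κ * N ^ 2 := by
  constructor
  · nlinarith [mul_nonneg hε0 hN]
  · have h1 : (0 - -A) * M ≤ 2 * ε * N ^ 2 := by
      calc (0 - -A) * M = A * M := by ring
        _ ≤ (2 * N) * (ε * N) := mul_le_mul hκ1 hM hM0 (by linarith)
        _ = 2 * ε * N ^ 2 := by ring
    have h2 : M ^ 2 ≤ ε * N ^ 2 := by
      calc M ^ 2 ≤ (ε * N) ^ 2 := pow_le_pow_left₀ hM0 hM 2
        _ = ε * (ε * N ^ 2) := by ring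
        _ ≤ 1 * (ε * N ^ 2) := mul_le_mul_of_nonneg_right hε1 (by positivity)
        _ = ε * N ^ 2 := one_mul _
    calc Real.pi * ((0 - -A) * M + 6 * M ^ 2) ≤ 4 * (8 * ε * N ^ 2) := by
          refine mul_le_mul Real.pi_le_four (by linarith) ?_ (by norm_num)
          have : 0 ≤ (0 - -A) * M := mul_nonneg (by linarith) hM0
          positivity
      _ ≤ κ * N ^ 2 := by nlinarith [sq_nonneg N]

/-- The core from the parameters. -/
lemma core_of_params {κ₀ μ K δ : ℝ} (hκ : 0 < κ) (hκκ₀ : 8 * κ ≤ κ₀) (hμ : 0 < μ)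
    (hμ' : μ < 1 / 4) (h4μ : 1 - κ ≤ (1 - 4 * μ) ^ Fintype.card ι) (hκ1 : κ ≤ 1) (hK : 0 ≤ K)
    (hwin : ∀ x y, |win μ x - win μ y| ≤ K * |x - y|) {L N M : ℕ} (hL0 : 0 < L) (hM : 0 < M)
    (hdvd : 2 * d.J * ∏ i, d.ℓ i ∣ L) (hMδ : 1 / (M : ℝ) ≤ δ) (hNδ : 2 / (κ₀ * N) ≤ δ)
    (hδ : ∀ b ∈ boxes d, ∀ i, scl d b i * ((L : ℝ) ^ (Fintype.card ι - 1) * δ) < μ)
    (hword : ∀ t, |word d μ L t| ≤ 1)
    (hexp : ∀ θ : ℝ, ‖evalP (word d μ L) N (-(2 * Real.pi * θ))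
      - (Real.sqrt N : ℂ) * mainF d μ L θ‖ ≤ κ * Real.sqrt N)
    (hlip : 2 * (∑ b ∈ boxes d, heightB d b * ∑ i, 2 * (K * scl d b i)) *
      (L : ℝ) ^ (Fintype.card ι - 1) ≤ κ₀ * N)
    (herr : (∑ b ∈ boxes d, 4 * Fintype.card ι * heightB d b ^ 2 * (4 * K * ∑ i, scl d b i)) / L
      ≤ κ)
    (hA1 : (L : ℝ) ^ Fintype.card ι / 2 +
      Fintype.card ι * (L : ℝ) ^ (Fintype.card ι - 1) ≤ (1 + κ₀) * N)
    (hB : 0 + 2 * (M : ℝ) ≤ κ₀ * N)
    (hKb : Real.pi * ((0 - -((L : ℝ) ^ Fintype.card ι / 2 +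
      Fintype.card ι * (L : ℝ) ^ (Fintype.card ι - 1))) * M + 6 * (M : ℝ) ^ 2) ≤ κ₀ * (N : ℝ) ^ 2) :
    Core κ₀ N := by
  obtain ⟨U, ν, -, hU, hν, hTay, -, hcell⟩ := glueU M hM (nodeVal d L M) (nodeSlope d L M)
    (-((L : ℝ) ^ Fintype.card ι / 2 + Fintype.card ι * (L : ℝ) ^ (Fintype.card ι - 1))) 0
    (fun k => nodeSlope_range d hL0 hdvd k)
    (fun k => ⟨0, by rw [(node_periodic d hM k).1]; simp⟩)
    (fun k => (node_periodic d hM k).2)
    (fun k => ⟨0, by rw [nodeVal_neg]; simp⟩)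
    (fun k => nodeSlope_neg d L M k)
  refine ⟨word d μ L, rFun d μ L, U, ν, hword, fun θ => ?_, fun θ φ => ?_, ?_,
    fun θ hθ => ?_, hU, fun θ => ?_, fun θ s => ?_, fun θ => ?_⟩
  · refine ⟨(rFun_periodic d μ L θ).1, (rFun_periodic d μ L θ).2,
      add_nonneg (plusR_nonneg d μ L θ) (plusR_nonneg d μ L (-θ)), ?_⟩
    linarith [rFun_le d hκ.le hμ L θ]
  · exact (rFun_lip d hμ hK hwin hL0 θ φ).trans
      (mul_le_mul_of_nonneg_right hlip (abs_nonneg _))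
  · have h := integral_rFun_sq d hμ hμ' hK hwin hL0
    have h5 := mul_le_mul_of_nonneg_right h4μ (show (0 : ℝ) ≤ 1 - κ by linarith)
    nlinarith
  · have hθ2 : |θ| * 2 ≤ δ :=
      ((mul_le_mul_of_nonneg_right hθ zero_le_two).trans_eq (by ring)).trans hNδ
    constructor
    · refine rFun_zero d hμ hL0 hδ (n := 0) ?_
      simpa [abs_mul, mul_comm] using hθ2
    · refine rFun_zero d hμ hL0 hδ (n := 1) ?_
      rw [show 2 * (1 / 2 + θ) - ((1 : ℤ) : ℝ) = θ * 2 by push_cast; ring, abs_mul, abs_two]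
      exact hθ2
  · obtain ⟨h1, h2⟩ := hν θ
    exact ⟨by linarith, h2.trans hB⟩
  · refine (hTay θ s).trans ?_
    rw [mul_pow, ← mul_assoc κ₀]
    exact mul_le_mul_of_nonneg_right hKb (sq_nonneg s)
  · have h := hexp θ
    rw [mainF_eq d hμ hL0 hdvd hM hMδ hδ (fun t => (hU t).2.2) hcell θ] at h
    refine le_trans (le_of_eq ?_) (h.trans
      (mul_le_mul_of_nonneg_right (by linarith) (Real.sqrt_nonneg _)))
    congr 1
    push_cast; ring

/-- The numerical conditions at a large length. -/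
lemma arith_params {κ₀ κ L Z N D H μ Q : ℝ} (hκ₀ : 0 < κ₀) (hκ : 0 < κ) (hκκ₀ : 8 * κ ≤ κ₀)
    (hκ1 : 8 * κ ≤ 1) (hL : 0 < L) (hZ : 1 ≤ Z) (hD : 0 ≤ D) (hN : N = Z * L / 2)
    (c1 : Q * (4 / κ₀ + 32 / κ) / L < μ) (c2 : 4 * H / L < κ₀) (c4 : 2 * D / L < κ₀)
    (c5 : 64 / κ / L < 1) (c6 : 2 * D / L < 1) :
    ∃ M : ℕ, 0 < M ∧ 1 / (M : ℝ) ≤ 2 / (κ₀ * N) + 16 / (κ * N) ∧
      Q * (Z * (2 / (κ₀ * N) + 16 / (κ * N))) < μ ∧ 2 * H * Z ≤ κ₀ * N ∧
      Z * L / 2 + D * Z ≤ (1 + κ₀) * N ∧ 0 + 2 * (M : ℝ) ≤ κ₀ * N ∧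
      Real.pi * ((0 - -(Z * L / 2 + D * Z)) * M + 6 * (M : ℝ) ^ 2) ≤ κ₀ * N ^ 2 := by
  have hN0 : 0 < N := by rw [hN]; positivity
  rw [div_lt_iff₀ hL] at c2 c4 c5 c6
  rw [div_lt_iff₀ hκ] at c5
  have hNL : L / 2 ≤ N := by
    rw [hN]; linarith [mul_le_mul_of_nonneg_right hZ hL.le]
  set x := κ / 8 * N with hx
  have hx2 : 4 ≤ x := by
    rw [hx]; linarith [mul_le_mul_of_nonneg_left hNL (show 0 ≤ κ / 8 by linarith)]
  have hf := Nat.floor_le (show 0 ≤ x by linarith)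
  have hf2 := Nat.lt_floor_add_one x
  have hM : (0 : ℝ) < ⌊x⌋₊ := by linarith
  have hA1 : Z * L / 2 + D * Z ≤ (1 + κ₀) * N := by
    rw [hN]; linarith [mul_le_mul_of_nonneg_left c4.le (show 0 ≤ Z by linarith)]
  have hA2 : Z * L / 2 + D * Z ≤ 2 * N := by
    rw [hN]; linarith [mul_le_mul_of_nonneg_left c6.le (show 0 ≤ Z by linarith)]
  obtain ⟨hB, hKb⟩ := range_bounds hκ₀ (show 0 ≤ κ / 8 by linarith) (by linarith) (by linarith)
    hN0.le hM.le (hf.trans_eq hx) hA1 (by positivity) hA2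
  refine ⟨⌊x⌋₊, Nat.cast_pos.1 hM, ?_, lt_of_eq_of_lt ?_ c1, ?_, hA1, hB, hKb⟩
  · refine le_trans ?_ (le_add_of_nonneg_left (by positivity))
    rw [div_le_div_iff₀ hM (by positivity)]
    linarith
  · rw [hN]; field_simp; ring
  · rw [hN]; linarith [mul_le_mul_of_nonneg_left c2.le (show 0 ≤ Z by linarith)]

/-- The core of a design at all large lengths. -/
theorem core_of_design {κ₀ : ℝ} (hκ₀ : 0 < κ₀) (hκ : 0 < κ) (hκκ₀ : 8 * κ ≤ κ₀) (hκ1 : 8 * κ ≤ 1)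
    (hexp : ExpandStatement d) (N₀ : ℕ) : ∃ N, N₀ ≤ N ∧ Core κ₀ N := by
  have hD : 2 ≤ Fintype.card ι := d.two_le
  have hD' : (2 : ℝ) ≤ (Fintype.card ι : ℝ) := by exact_mod_cast hD
  obtain ⟨μ, hμdef⟩ : ∃ μ, μ = κ / (4 * (Fintype.card ι : ℝ)) := ⟨_, rfl⟩
  have hμ : 0 < μ := by rw [hμdef]; positivity
  have hμ' : μ < 1 / 4 := by
    rw [hμdef, div_lt_iff₀ (by positivity)]; linarith
  have h4μ : 1 - κ ≤ (1 - 4 * μ) ^ Fintype.card ι := by
    have h := one_add_mul_le_pow (a := -(4 * μ)) (by linarith) (Fintype.card ι)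
    have e : (Fintype.card ι : ℝ) * (4 * μ) = κ := by rw [hμdef]; field_simp
    rw [← sub_eq_add_neg] at h
    linarith
  obtain ⟨K, hK, hwin⟩ := exists_win_lip hμ
  obtain ⟨hword, hex⟩ := hexp μ hμ hμ'
  obtain ⟨L₀, hL₀⟩ := hex κ hκ
  obtain ⟨L₁, hL₁⟩ := eventually_atTop.1
    ((eventually_div_le ((∑ b ∈ boxes d, ∑ i, scl d b i) * (4 / κ₀ + 32 / κ)) hμ).and
    ((eventually_div_le (4 * ∑ b ∈ boxes d, heightB d b * ∑ i, 2 * (K * scl d b i)) hκ₀).and
    ((eventually_div_le (∑ b ∈ boxes d,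
      4 * Fintype.card ι * heightB d b ^ 2 * (4 * K * ∑ i, scl d b i)) hκ).and
    ((eventually_div_le (2 * (Fintype.card ι : ℝ)) hκ₀).and ((eventually_div_le (64 / κ) one_pos).and
      (eventually_div_le (2 * (Fintype.card ι : ℝ)) one_pos))))))
  have hPpos : 0 < 2 * d.J * ∏ i, d.ℓ i :=
    Nat.mul_pos (Nat.mul_pos two_pos d.J_pos) (prod_pos fun i _ => d.ℓ_pos i)
  obtain ⟨L, hLn, hdvd⟩ : ∃ L, L₀ + L₁ + 2 * N₀ + 1 ≤ L ∧ 2 * d.J * ∏ i, d.ℓ i ∣ L :=
    ⟨_, Nat.le_mul_of_pos_left _ hPpos, Dvd.intro (L₀ + L₁ + 2 * N₀ + 1) rfl⟩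
  have hL0 : 0 < L := by omega
  obtain ⟨c1, c2, c3, c4, c5, c6⟩ := hL₁ L (by omega)
  have heven : 2 ∣ L := Dvd.dvd.trans (by rw [mul_assoc]; exact Dvd.intro _ rfl) hdvd
  obtain ⟨N, hN⟩ : 2 ∣ L ^ Fintype.card ι := heven.trans (dvd_pow_self L (by omega))
  have hNR : (N : ℝ) = (L : ℝ) ^ (Fintype.card ι - 1) * L / 2 := by
    rw [← pow_succ, Nat.sub_add_cancel (by omega)]
    have : ((2 * N : ℕ) : ℝ) = ((L ^ Fintype.card ι : ℕ) : ℝ) := by rw [hN]
    push_cast at this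
    linarith
  have hLD : L ≤ L ^ Fintype.card ι := Nat.le_self_pow (by omega) L
  refine ⟨N, by omega, ?_⟩
  obtain ⟨M, hM, hMδ, hQ, hlip, hA1, hB, hKb⟩ := arith_params hκ₀ hκ hκκ₀ hκ1
    (Nat.cast_pos.2 hL0) (one_le_pow₀ (by exact_mod_cast hL0)) (by linarith) hNR c1 c2 c4 c5 c6
  have hpow : (L : ℝ) ^ Fintype.card ι = (L : ℝ) ^ (Fintype.card ι - 1) * L := by
    rw [← pow_succ, Nat.sub_add_cancel (by omega)]
  refine core_of_params d hκ hκκ₀ hμ hμ' h4μ (by linarith) hK hwin hL0 hM hdvd hMδ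
    (le_add_of_nonneg_right (by positivity)) (fun b hb i => lt_of_le_of_lt ?_ hQ) (hword L)
    (hL₀ L N (by omega) hdvd hN.symm) hlip c3.le (by rw [hpow]; exact hA1) hB
    (by rw [hpow]; exact hKb)
  refine mul_le_mul_of_nonneg_right ?_ (by positivity)
  refine (single_le_sum (f := fun i => scl d b i) (fun j _ => ?_) (mem_univ i)).trans
    (single_le_sum (f := fun b => ∑ i, scl d b i) (fun b' hb' => ?_) hb)
  · exact le_trans zero_le_one (one_le_scl d hb j)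
  · exact sum_nonneg fun j _ => le_trans zero_le_one (one_le_scl d hb' j)

/-- **Module Analysis**, given the expansion. -/
theorem analysis_of
    (hexp : ∀ {κ : ℝ} {ι : Type} [Fintype ι] [DecidableEq ι] (d : Design κ ι), ExpandStatement d) :
    AnalysisGoal := by
  intro κ₀ hκ₀
  refine ⟨min κ₀ 1 / 8, by positivity, fun ι _ _ hd N₀ => ?_⟩
  obtain ⟨d⟩ := hd
  exact core_of_design d hκ₀ (by positivity) (by linarith [min_le_left κ₀ 1])
    (by linarith [min_le_right κ₀ 1]) (hexp d) N₀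

end Vale.Agent.P110.Exist.Analysis
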