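import Vale.Agent.P110.Exist.Analysis.Defs

/-! Geometry of the boxes of a design (`PROOF.md`, section N, steps 2 and 3): exclusivity,
bounds of the envelope, and the node data of the phase. -/

namespace Vale.Agent.P110.Exist.Analysis

open Finset MeasureTheory
open scoped BigOperators ComplexConjugate NNReal

/-! ### The window -/

lemma win_nonneg (μ x : ℝ) : 0 ≤ win μ x :=
  mul_nonneg (Real.smoothTransition.nonneg _) (Real.smoothTransition.nonneg _)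

lemma win_le_one (μ x : ℝ) : win μ x ≤ 1 :=
  mul_le_one₀ (Real.smoothTransition.le_one _) (Real.smoothTransition.nonneg _)
    (Real.smoothTransition.le_one _)

lemma win_eq_zero_left {μ x : ℝ} (hμ : 0 < μ) (hx : x ≤ μ) : win μ x = 0 := by
  rw [win, Real.smoothTransition.zero_of_nonpos
    (div_nonpos_of_nonpos_of_nonneg (by linarith) hμ.le), zero_mul]

lemma win_eq_zero_right {μ x : ℝ} (hμ : 0 < μ) (hx : 1 - μ ≤ x) : win μ x = 0 := by
  rw [win, Real.smoothTransition.zero_of_nonpos (x := (1 - μ - x) / μ)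
    (div_nonpos_of_nonpos_of_nonneg (by linarith) hμ.le), mul_zero]

lemma mem_of_win_ne_zero {μ x : ℝ} (hμ : 0 < μ) (h : win μ x ≠ 0) : μ < x ∧ x < 1 - μ :=
  ⟨not_le.1 fun h' => h (win_eq_zero_left hμ h'), not_le.1 fun h' => h (win_eq_zero_right hμ h')⟩

lemma win_eq_one {μ x : ℝ} (hμ : 0 < μ) (h1 : 2 * μ ≤ x) (h2 : x ≤ 1 - 2 * μ) : win μ x = 1 := by
  rw [win, Real.smoothTransition.one_of_one_le (by rw [le_div_iff₀ hμ]; linarith),
    Real.smoothTransition.one_of_one_le (by rw [le_div_iff₀ hμ]; linarith), mul_one]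

lemma exists_win_lip {μ : ℝ} (hμ : 0 < μ) :
    ∃ K : ℝ, 0 ≤ K ∧ ∀ x y, |win μ x - win μ y| ≤ K * |x - y| := by
  have hd : ContDiff ℝ 1 (win μ) := by
    unfold win
    exact (Real.smoothTransition.contDiff.comp (by fun_prop)).mul
      (Real.smoothTransition.contDiff.comp (by fun_prop))
  have hc : HasCompactSupport (win μ) := HasCompactSupport.intro (isCompact_Icc (a := μ) (b := 1 - μ))
    fun x hx => by
      by_contra h
      exact hx ⟨(mem_of_win_ne_zero hμ h).1.le, (mem_of_win_ne_zero hμ h).2.le⟩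
  obtain ⟨C, hC⟩ := hd.lipschitzWith_of_hasCompactSupport hc one_ne_zero
  refine ⟨C, C.2, fun x y => ?_⟩
  simpa [Real.dist_eq] using hC.dist_le_mul x y

/-- The periodised window of scale `q`. -/
noncomputable def pwin (μ q z : ℝ) : ℝ := win μ (q * Int.fract z)

lemma pwin_lip {μ K q : ℝ} (hμ : 0 < μ) (hK : 0 ≤ K)
    (hwin : ∀ x y, |win μ x - win μ y| ≤ K * |x - y|) (hq : 1 ≤ q) (x y : ℝ) :
    |pwin μ q x - pwin μ q y| ≤ 2 * (K * q) * |x - y| := by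
  have key : ∀ x y : ℝ, x ≤ y → |pwin μ q x - pwin μ q y| ≤ 2 * (K * q) * |x - y| := by
    intro x y hxy
    have h0 : ∀ z, |pwin μ q z| ≤ K * q * Int.fract z ∧ |pwin μ q z| ≤ K * q * (1 - Int.fract z) := by
      intro z
      have hz := Int.fract_nonneg z
      have hz1 := Int.fract_lt_one z
      constructor
      · have h := hwin (q * Int.fract z) 0
        rw [win_eq_zero_left (x := (0 : ℝ)) hμ hμ.le, sub_zero, sub_zero,
          abs_of_nonneg (mul_nonneg (by linarith) hz)] at h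
        exact h.trans_eq (by ring)
      · have h := hwin (q * Int.fract z) q
        rw [win_eq_zero_right (x := q) hμ (by linarith), sub_zero, abs_sub_comm,
          show q - q * Int.fract z = q * (1 - Int.fract z) by ring,
          abs_of_nonneg (show (0 : ℝ) ≤ q * (1 - Int.fract z) from
            mul_nonneg (le_trans zero_le_one hq) (sub_nonneg.2 hz1.le))] at h
        exact h.trans_eq (by ring)
    rw [abs_sub_comm x y, abs_of_nonneg (sub_nonneg.2 hxy)]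
    have hKq : 0 ≤ K * q := mul_nonneg hK (by linarith)
    rcases eq_or_ne ⌊x⌋ ⌊y⌋ with h | h
    · have he : Int.fract x - Int.fract y = x - y := by rw [Int.fract, Int.fract, h]; ring
      refine (hwin _ _).trans ?_
      rw [← mul_sub, he, abs_mul, abs_of_nonneg (by linarith : (0 : ℝ) ≤ q), abs_sub_comm,
        abs_of_nonneg (sub_nonneg.2 hxy)]
      nlinarith [mul_nonneg hKq (sub_nonneg.2 hxy)]
    · have h1 : ⌊x⌋ + 1 ≤ ⌊y⌋ := lt_of_le_of_ne (Int.floor_le_floor hxy) h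
      have h2 : (⌊x⌋ : ℝ) + 1 ≤ ⌊y⌋ := by exact_mod_cast h1
      have h3 := Int.floor_le y
      have h4 := Int.lt_floor_add_one x
      have ha : Int.fract y ≤ y - x := by rw [Int.fract]; linarith
      have hb : 1 - Int.fract x ≤ y - x := by rw [Int.fract]; linarith
      refine (abs_sub _ _).trans ?_
      have := (h0 x).2.trans (mul_le_mul_of_nonneg_left hb hKq)
      have := (h0 y).1.trans (mul_le_mul_of_nonneg_left ha hKq)
      linarith
  rcases le_total x y with h | h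
  · exact key x y h
  · rw [abs_sub_comm, abs_sub_comm x y]; exact key y x h

lemma abs_prod_sub_le {α : Type*} (s : Finset α) {a b : α → ℝ} (ha : ∀ i, 0 ≤ a i ∧ a i ≤ 1)
    (hb : ∀ i, 0 ≤ b i ∧ b i ≤ 1) : |∏ i ∈ s, a i - ∏ i ∈ s, b i| ≤ ∑ i ∈ s, |a i - b i| := by
  classical
  induction s using Finset.induction_on with
  | empty => simp
  | insert i s hi ih =>
    rw [prod_insert hi, prod_insert hi, sum_insert hi,
      show a i * ∏ x ∈ s, a x - b i * ∏ x ∈ s, b x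
        = (a i - b i) * ∏ x ∈ s, a x + b i * (∏ x ∈ s, a x - ∏ x ∈ s, b x) by ring]
    refine (abs_add_le _ _).trans (add_le_add ?_ ?_)
    · rw [abs_mul, abs_of_nonneg (prod_nonneg fun x _ => (ha x).1)]
      exact mul_le_of_le_one_right (abs_nonneg _) (Finset.prod_le_one (fun x _ => (ha x).1) fun x _ => (ha x).2)
    · rw [abs_mul, abs_of_nonneg (hb i).1]
      exact (mul_le_of_le_one_left (abs_nonneg _) (hb i).2).trans ih

/-! ### Boxes -/

variable {κ : ℝ} {ι : Type} [Fintype ι] [DecidableEq ι] (d : Design κ ι)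

/-- A box: segment, harmonic and spike. -/
abbrev Box : Type := (ι → ℕ) × ℕ × Res d.ℓ

/-- The boxes with a nonzero amplitude. -/
noncomputable def boxes : Finset (Box d) :=
  (d.T ×ˢ (d.S ×ˢ (univ : Finset (Res d.ℓ)))).filter fun b => coef (d.g b.1 b.2.1) b.2.2 ≠ 0

lemma mem_boxes {b : Box d} :
    b ∈ boxes d ↔ b.1 ∈ d.T ∧ b.2.1 ∈ d.S ∧ coef (d.g b.1 b.2.1) b.2.2 ≠ 0 := by
  simp [boxes, and_assoc]

/-- The scale of a box in coordinate `i`. -/
noncomputable def scl (b : Box d) (i : ι) : ℝ := (d.J : ℝ) * d.ℓ i / b.2.1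

/-- The shift of a box in coordinate `i`. -/
noncomputable def shf (b : Box d) (i : ι) : ℝ :=
  ((b.2.2 i : ℕ) : ℝ) / d.ℓ i + (b.2.1 : ℝ) * b.1 i / (d.J * d.ℓ i)

/-- The position inside the cells of a box. -/
noncomputable def pos (L : ℕ) (b : Box d) (θ : ℝ) (i : ι) : ℝ :=
  scl d b i * Int.fract ((L : ℝ) ^ expo d i * θ - shf d b i)

/-- The point is in the open cells of the box. -/
def Act (L : ℕ) (b : Box d) (θ : ℝ) : Prop :=
  ∀ i, 0 < pos d L b θ i ∧ pos d L b θ i < 1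

/-- The envelope of a box. -/
noncomputable def envB (μ : ℝ) (L : ℕ) (b : Box d) (θ : ℝ) : ℝ := ∏ i, win μ (pos d L b θ i)

/-- The height of a box. -/
noncomputable def heightB (b : Box d) : ℝ := height d b.1 b.2.1 b.2.2

lemma m_pos {b : Box d} (hb : b ∈ boxes d) : 0 < b.2.1 :=
  ((d.S_dvd _ ((mem_boxes d).1 hb).2.1).1).pos

lemma m_le_J {b : Box d} (hb : b ∈ boxes d) : b.2.1 ≤ d.J :=
  Nat.le_of_dvd d.J_pos (d.S_dvd _ ((mem_boxes d).1 hb).2.1).2

lemma one_le_scl {b : Box d} (hb : b ∈ boxes d) (i : ι) : 1 ≤ scl d b i := by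
  rw [scl, le_div_iff₀ (Nat.cast_pos.2 (m_pos d hb)), one_mul]
  have h1 : (b.2.1 : ℝ) ≤ d.J := by exact_mod_cast m_le_J d hb
  have h2 : (1 : ℝ) ≤ d.ℓ i := by exact_mod_cast d.ℓ_pos i
  nlinarith

lemma lift_eq (L : ℕ) (b : Box d) (θ : ℝ) (i : ι) :
    lift d L b.1 b.2.1 b.2.2 θ i = (b.2.1 : ℝ) * b.1 i / (d.J * d.ℓ i) +
      Int.fract ((L : ℝ) ^ expo d i * θ - shf d b i) := by
  rw [lift, shf, Int.fract, ← sub_sub]
  ring

lemma pos_eq {b : Box d} (hb : b ∈ boxes d) (L : ℕ) (θ : ℝ) (i : ι) :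
    (d.J : ℝ) * d.ℓ i * lift d L b.1 b.2.1 b.2.2 θ i / b.2.1 - b.1 i = pos d L b θ i := by
  have : (b.2.1 : ℝ) ≠ 0 := Nat.cast_ne_zero.2 (m_pos d hb).ne'
  have : (d.J : ℝ) ≠ 0 := Nat.cast_ne_zero.2 d.J_pos.ne'
  have : (d.ℓ i : ℝ) ≠ 0 := Nat.cast_ne_zero.2 (d.ℓ_pos i).ne'
  rw [lift_eq, pos, scl]
  field_simp
  ring

lemma env_eq {b : Box d} (hb : b ∈ boxes d) (μ : ℝ) (L : ℕ) (θ : ℝ) :
    env d μ L b.1 b.2.1 b.2.2 θ = envB d μ L b θ :=
  prod_congr rfl fun i _ => by rw [pos_eq d hb]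

lemma envB_nonneg (μ : ℝ) (L : ℕ) (b : Box d) (θ : ℝ) : 0 ≤ envB d μ L b θ :=
  prod_nonneg fun _ _ => win_nonneg _ _

lemma envB_le_one (μ : ℝ) (L : ℕ) (b : Box d) (θ : ℝ) : envB d μ L b θ ≤ 1 :=
  Finset.prod_le_one (fun _ _ => win_nonneg _ _) fun _ _ => win_le_one _ _

lemma act_of_envB {μ : ℝ} (hμ : 0 < μ) {L : ℕ} {b : Box d} {θ : ℝ} (h : envB d μ L b θ ≠ 0) :
    Act d L b θ := fun i => by
  obtain ⟨h1, h2⟩ := mem_of_win_ne_zero hμ (Finset.prod_ne_zero_iff.1 h i (mem_univ i))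
  exact ⟨by linarith, by linarith⟩

lemma pos_periodic (L : ℕ) (b : Box d) (θ : ℝ) (n : ℤ) (i : ι) :
    pos d L b (θ + n) i = pos d L b θ i := by
  rw [pos, pos, show (L : ℝ) ^ expo d i * (θ + n) - shf d b i
    = (L : ℝ) ^ expo d i * θ - shf d b i + (((L : ℤ) ^ expo d i * n : ℤ) : ℝ) by push_cast; ring,
    Int.fract_add_intCast]

lemma act_periodic (L : ℕ) (b : Box d) (θ : ℝ) (n : ℤ) :
    Act d L b (θ + n) ↔ Act d L b θ := by simp only [Act, pos_periodic]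

lemma envB_periodic (μ : ℝ) (L : ℕ) (b : Box d) (θ : ℝ) (n : ℤ) :
    envB d μ L b (θ + n) = envB d μ L b θ := by simp only [envB, pos_periodic]

lemma lift_periodic (L : ℕ) (b : Box d) (θ : ℝ) (n : ℤ) (i : ι) :
    lift d L b.1 b.2.1 b.2.2 (θ + n) i = lift d L b.1 b.2.1 b.2.2 θ i := by
  rw [lift_eq, lift_eq, show (L : ℝ) ^ expo d i * (θ + n) - shf d b i
    = (L : ℝ) ^ expo d i * θ - shf d b i + (((L : ℤ) ^ expo d i * n : ℤ) : ℝ) by push_cast; ring,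
    Int.fract_add_intCast]

/-- The cells met by an active point. -/
lemma act_cell {L : ℕ} {b : Box d} (hb : b ∈ boxes d) {θ : ℝ} (h : Act d L b θ) (i : ι) :
    ∃ n : ℤ, ((b.2.2 i : ℕ) : ℝ) * d.J + (b.2.1 : ℝ) * b.1 i + (d.J * d.ℓ i : ℕ) * n
        < (d.J : ℝ) * d.ℓ i * ((L : ℝ) ^ expo d i * θ) ∧
      (d.J : ℝ) * d.ℓ i * ((L : ℝ) ^ expo d i * θ)
        < ((b.2.2 i : ℕ) : ℝ) * d.J + (b.2.1 : ℝ) * b.1 i + (d.J * d.ℓ i : ℕ) * n + b.2.1 := by
  have hm : (0 : ℝ) < b.2.1 := Nat.cast_pos.2 (m_pos d hb)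
  have hJ : (0 : ℝ) < d.J := Nat.cast_pos.2 d.J_pos
  have hl : (0 : ℝ) < d.ℓ i := Nat.cast_pos.2 (d.ℓ_pos i)
  refine ⟨⌊(L : ℝ) ^ expo d i * θ - shf d b i⌋, ?_⟩
  obtain ⟨h1, h2⟩ := h i
  rw [pos, scl, Int.fract, div_mul_eq_mul_div] at h1 h2
  rw [div_lt_one hm] at h2
  rw [lt_div_iff₀ hm, zero_mul] at h1
  have e : (d.J : ℝ) * d.ℓ i * shf d b i = ((b.2.2 i : ℕ) : ℝ) * d.J + (b.2.1 : ℝ) * b.1 i := by
    rw [shf]; field_simp
  push_cast
  constructor <;> nlinarith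

/-- The fine cell of a frequency. -/
noncomputable def fineCell (L : ℕ) (θ : ℝ) (i : ι) : ℕ :=
  (⌊(d.J : ℝ) * d.ℓ i * ((L : ℝ) ^ expo d i * θ)⌋ % ((d.J * d.ℓ i : ℕ) : ℤ)).toNat

lemma fineCell_lt (L : ℕ) (θ : ℝ) (i : ι) : fineCell d L θ i < d.J * d.ℓ i := by
  have hpos : (0 : ℤ) < ((d.J * d.ℓ i : ℕ) : ℤ) := by exact_mod_cast Nat.mul_pos d.J_pos (d.ℓ_pos i)
  rw [fineCell, Int.toNat_lt (Int.emod_nonneg _ hpos.ne')]
  exact Int.emod_lt_of_pos _ hpos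

lemma hits_of_int {J ℓ m j u φ : ℕ} {k : ℤ} (h0 : 0 ≤ k) (h1 : k < m)
    (h : (φ : ℤ) ≡ (u : ℤ) * J + m * j + k [ZMOD (J * ℓ : ℕ)]) : Hits J ℓ m j u φ := by
  obtain ⟨k', rfl⟩ := Int.eq_ofNat_of_zero_le h0
  refine ⟨k', by exact_mod_cast h1, ?_⟩
  rw [← Int.natCast_modEq_iff]
  push_cast at h ⊢
  exact h

lemma hits_act {L : ℕ} {b : Box d} (hb : b ∈ boxes d) {θ : ℝ} (h : Act d L b θ) (i : ι) :
    Hits d.J (d.ℓ i) b.2.1 (b.1 i) (b.2.2 i) (fineCell d L θ i) := by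
  obtain ⟨n, hn1, hn2⟩ := act_cell d hb h i
  set Y := (d.J : ℝ) * d.ℓ i * ((L : ℝ) ^ expo d i * θ)
  set A : ℤ := (b.2.2 i : ℕ) * d.J + (b.2.1 : ℤ) * b.1 i + ((d.J * d.ℓ i : ℕ) : ℤ) * n with hA
  have hpos : (0 : ℤ) < ((d.J * d.ℓ i : ℕ) : ℤ) := by exact_mod_cast Nat.mul_pos d.J_pos (d.ℓ_pos i)
  refine hits_of_int (k := ⌊Y⌋ - A) ?_ ?_ ?_
  · rw [sub_nonneg, Int.le_floor]; simp only [hA]; push_cast at hn1 ⊢; linarith
  · rw [sub_lt_iff_lt_add, Int.floor_lt]; simp only [hA]; push_cast at hn2 ⊢; linarith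
  · rw [fineCell, Int.toNat_of_nonneg (Int.emod_nonneg _ hpos.ne')]
    refine (Int.mod_modEq _ _).trans (Int.modEq_iff_dvd.2 ⟨-n, ?_⟩)
    simp only [hA]; push_cast; ring

lemma hits_act_neg {L : ℕ} {b : Box d} (hb : b ∈ boxes d) {θ : ℝ} (h : Act d L b (-θ)) (i : ι) :
    Hits d.J (d.ℓ i) b.2.1 (b.1 i) (b.2.2 i) (d.J * d.ℓ i - 1 - fineCell d L θ i) := by
  obtain ⟨n, hn1, hn2⟩ := act_cell d hb h i
  rw [mul_neg, mul_neg] at hn1 hn2
  set Y := (d.J : ℝ) * d.ℓ i * ((L : ℝ) ^ expo d i * θ)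
  set A : ℤ := (b.2.2 i : ℕ) * d.J + (b.2.1 : ℤ) * b.1 i + ((d.J * d.ℓ i : ℕ) : ℤ) * n with hA
  have hpos : (0 : ℤ) < ((d.J * d.ℓ i : ℕ) : ℤ) := by exact_mod_cast Nat.mul_pos d.J_pos (d.ℓ_pos i)
  have hlt := fineCell_lt d L θ i
  refine hits_of_int (k := -1 - ⌊Y⌋ - A) ?_ ?_ ?_
  · have : ⌊Y⌋ < -A := Int.floor_lt.2 (by simp only [hA]; push_cast at hn1 ⊢; linarith)
    omega
  · have : -A - (b.2.1 : ℤ) ≤ ⌊Y⌋ :=
      Int.le_floor.2 (by simp only [hA]; push_cast at hn2 ⊢; linarith)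
    omega
  · rw [Nat.cast_sub (by omega), Nat.cast_sub (by omega), fineCell,
      Int.toNat_of_nonneg (Int.emod_nonneg _ hpos.ne')]
    refine ((Int.ModEq.sub (Int.ModEq.refl _) (Int.mod_modEq _ _)).trans
      (Int.modEq_iff_dvd.2 ⟨-1 - n, ?_⟩))
    simp only [hA]; push_cast; ring

lemma act_unique {L : ℕ} {b b' : Box d} (hb : b ∈ boxes d) (hb' : b' ∈ boxes d) {θ : ℝ}
    (h : Act d L b θ) (h' : Act d L b' θ) : b = b' := by
  obtain ⟨hT, hS, hc⟩ := (mem_boxes d).1 hb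
  obtain ⟨hT', hS', hc'⟩ := (mem_boxes d).1 hb'
  obtain ⟨h1, h2, h3⟩ := ((d.disjoint _ hT _ hT' _ hS _ hS' _ _ hc hc' (fineCell d L θ)
    (fineCell_lt d L θ) (hits_act d hb h)).1 (hits_act d hb' h'))
  exact Prod.ext h1 (Prod.ext h2 h3)

lemma act_mirror {L : ℕ} {b b' : Box d} (hb : b ∈ boxes d) (hb' : b' ∈ boxes d) {θ : ℝ}
    (h : Act d L b θ) (h' : Act d L b' (-θ)) : False := by
  obtain ⟨hT, hS, hc⟩ := (mem_boxes d).1 hb
  obtain ⟨hT', hS', hc'⟩ := (mem_boxes d).1 hb'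
  exact (d.disjoint _ hT _ hT' _ hS _ hS' _ _ hc hc' (fineCell d L θ)
    (fineCell_lt d L θ) (hits_act d hb h)).2 (hits_act_neg d hb' h')

/-- A small move inside the margins. -/
lemma move_inside {μ δ : ℝ} (hμ : 0 < μ) {L : ℕ} (hL : 0 < L) {b : Box d} (hb : b ∈ boxes d)
    (hδ : ∀ i, scl d b i * ((L : ℝ) ^ (Fintype.card ι - 1) * δ) < μ) {θ τ : ℝ}
    (h : envB d μ L b θ ≠ 0) (hτ : |τ - θ| ≤ δ) :
    Act d L b τ ∧ ∀ i, lift d L b.1 b.2.1 b.2.2 τ i
      = lift d L b.1 b.2.1 b.2.2 θ i + (L : ℝ) ^ expo d i * (τ - θ) := by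
  have key : ∀ i, Int.fract ((L : ℝ) ^ expo d i * τ - shf d b i)
      = Int.fract ((L : ℝ) ^ expo d i * θ - shf d b i) + (L : ℝ) ^ expo d i * (τ - θ) ∧
      0 < pos d L b τ i ∧ pos d L b τ i < 1 := by
    intro i
    have hq := one_le_scl d hb i
    obtain ⟨h1, h2⟩ := mem_of_win_ne_zero hμ (Finset.prod_ne_zero_iff.1 h i (mem_univ i))
    rw [pos] at h1 h2
    set f := Int.fract ((L : ℝ) ^ expo d i * θ - shf d b i) with hf
    have hp : (L : ℝ) ^ expo d i ≤ (L : ℝ) ^ (Fintype.card ι - 1) :=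
      pow_le_pow_right₀ (by exact_mod_cast hL)
        (Nat.le_sub_one_of_lt (idx d i).isLt)
    have hs : |scl d b i * ((L : ℝ) ^ expo d i * (τ - θ))| < μ := by
      refine lt_of_le_of_lt ?_ (hδ i)
      rw [abs_mul, abs_mul, abs_of_nonneg (by linarith : (0 : ℝ) ≤ scl d b i),
        abs_of_nonneg (by positivity : (0 : ℝ) ≤ (L : ℝ) ^ expo d i)]
      exact mul_le_mul_of_nonneg_left (mul_le_mul hp hτ (abs_nonneg _) (by positivity))
        (by linarith)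
    rw [abs_lt] at hs
    have h0 : 0 < f + (L : ℝ) ^ expo d i * (τ - θ) := by nlinarith
    have h3 : scl d b i * (f + (L : ℝ) ^ expo d i * (τ - θ)) < 1 := by linarith
    have h4 : f + (L : ℝ) ^ expo d i * (τ - θ) < 1 :=
      lt_of_le_of_lt (le_mul_of_one_le_left h0.le hq) h3
    have he : Int.fract ((L : ℝ) ^ expo d i * τ - shf d b i)
        = f + (L : ℝ) ^ expo d i * (τ - θ) := by
      rw [Int.fract_eq_iff]
      refine ⟨h0.le, h4, ⌊(L : ℝ) ^ expo d i * θ - shf d b i⌋, ?_⟩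
      rw [hf, Int.fract]; ring
    refine ⟨he, ?_, ?_⟩
    · rw [pos, he]; positivity
    · rw [pos, he]; exact h3
  exact ⟨fun i => (key i).2, fun i => by rw [lift_eq, lift_eq, (key i).1]; ring⟩

lemma envB_lip {μ K : ℝ} (hμ : 0 < μ) (hK : 0 ≤ K)
    (hwin : ∀ x y, |win μ x - win μ y| ≤ K * |x - y|) {L : ℕ} (hL : 0 < L) {b : Box d}
    (hb : b ∈ boxes d) (θ φ : ℝ) :
    |envB d μ L b θ - envB d μ L b φ| ≤
      (∑ i, 2 * (K * scl d b i)) * (L : ℝ) ^ (Fintype.card ι - 1) * |θ - φ| := by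
  refine (abs_prod_sub_le univ (fun i => ⟨win_nonneg _ _, win_le_one _ _⟩)
    fun i => ⟨win_nonneg _ _, win_le_one _ _⟩).trans ?_
  rw [sum_mul, sum_mul]
  refine sum_le_sum fun i _ => ?_
  have h := pwin_lip hμ hK hwin (one_le_scl d hb i) ((L : ℝ) ^ expo d i * θ - shf d b i)
    ((L : ℝ) ^ expo d i * φ - shf d b i)
  refine h.trans ?_
  rw [sub_sub_sub_cancel_right, ← mul_sub, abs_mul,
    abs_of_nonneg (by positivity : (0 : ℝ) ≤ (L : ℝ) ^ expo d i), ← mul_assoc]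
  refine mul_le_mul_of_nonneg_right (mul_le_mul_of_nonneg_left ?_ ?_) (abs_nonneg _)
  · exact pow_le_pow_right₀ (by exact_mod_cast hL) (Nat.le_sub_one_of_lt (idx d i).isLt)
  · have := one_le_scl d hb i
    positivity

/-! ### Amplitudes and phases -/

lemma modulus_cast {L m : ℕ} (hm : m ∈ d.S) (hL : 2 * d.J * ∏ i, d.ℓ i ∣ L) (i : ι) :
    (modulus d L m i : ℝ) = (d.ℓ i : ℝ) * L / m := by
  have h1 : m ∣ d.ℓ i * L := Dvd.dvd.mul_left ((d.S_dvd m hm).2.trans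
    ((Dvd.intro_left 2 rfl).trans ((Dvd.intro _ rfl).trans hL))) _
  rw [modulus, Nat.cast_div h1 (Nat.cast_ne_zero.2 (d.S_dvd m hm).1.pos.ne')]
  push_cast; rfl

lemma modulus_even {L m : ℕ} (hm : m ∈ d.S) (hL : 2 * d.J * ∏ i, d.ℓ i ∣ L) (i : ι) :
    Even (modulus d L m i) := by
  obtain ⟨e, he⟩ := (d.S_dvd m hm).2
  obtain ⟨f, hf⟩ := hL
  refine even_iff_two_dvd.2 ⟨d.ℓ i * e * (∏ i, d.ℓ i) * f, ?_⟩
  rw [modulus]
  refine Nat.div_eq_of_eq_mul_left (d.S_dvd m hm).1.pos ?_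
  rw [hf, he]; ring

lemma norm_amp {L : ℕ} (hL0 : 0 < L) (hL : 2 * d.J * ∏ i, d.ℓ i ∣ L) {b : Box d}
    (hb : b ∈ boxes d) : ‖amp d L b.1 b.2.1 b.2.2‖ = heightB d b := by
  have hm := ((mem_boxes d).1 hb).2.1
  rw [amp, heightB, height, norm_mul, norm_mul, norm_mul, Complex.norm_real,
    Real.norm_of_nonneg (Real.sqrt_nonneg _), norm_prod]
  congr 1
  refine prod_congr rfl fun i _ => ?_
  have hpos : 0 < modulus d L b.2.1 i := by
    have h : (0 : ℝ) < modulus d L b.2.1 i := by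
      rw [modulus_cast d hm hL]
      have := d.ℓ_pos i
      have := m_pos d hb
      positivity
    exact_mod_cast h
  rw [norm_div, norm_gauss0 hpos (modulus_even d hm hL i), Complex.norm_real,
    Real.norm_of_nonneg (Real.sqrt_nonneg _), ← Real.sqrt_div (Nat.cast_nonneg _),
    modulus_cast d hm hL]
  have : (L : ℝ) ≠ 0 := Nat.cast_ne_zero.2 hL0.ne'
  congr 1; field_simp

/-- The phase of a box with its constant. -/
noncomputable def phaseB (L : ℕ) (b : Box d) (θ : ℝ) : ℝ :=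
  Complex.arg (amp d L b.1 b.2.1 b.2.2) / (2 * Real.pi) + chirpPhase d L b.1 b.2.1 b.2.2 θ

/-- The slope of the phase of a box. -/
noncomputable def slopeB (L : ℕ) (b : Box d) (θ : ℝ) : ℝ :=
  -(∑ i, (modulus d L b.2.1 i : ℝ) * lift d L b.1 b.2.1 b.2.2 θ i * (L : ℝ) ^ expo d i)

lemma amp_fe {L : ℕ} (hL0 : 0 < L) (hL : 2 * d.J * ∏ i, d.ℓ i ∣ L) {b : Box d} (hb : b ∈ boxes d)
    (θ : ℝ) : amp d L b.1 b.2.1 b.2.2 * fe (chirpPhase d L b.1 b.2.1 b.2.2 θ)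
      = (heightB d b : ℂ) * fe (phaseB d L b θ) := by
  rw [fe_eq_ee, phaseB, ee_add, ← mul_assoc, ← norm_amp d hL0 hL hb]
  congr 1
  rw [ee, show 2 * Real.pi * (Complex.arg (amp d L b.1 b.2.1 b.2.2) / (2 * Real.pi))
    = Complex.arg (amp d L b.1 b.2.1 b.2.2) by field_simp, Complex.norm_mul_exp_arg_mul_I]

lemma phase_taylor {L : ℕ} {b : Box d} {θ τ : ℝ}
    (h : ∀ i, lift d L b.1 b.2.1 b.2.2 τ i
      = lift d L b.1 b.2.1 b.2.2 θ i + (L : ℝ) ^ expo d i * (τ - θ)) :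
    phaseB d L b τ = phaseB d L b θ + slopeB d L b θ * (τ - θ)
        + (slopeB d L b τ - slopeB d L b θ) * (τ - θ) / 2 := by
  have key : ∑ i, (modulus d L b.2.1 i : ℝ) * lift d L b.1 b.2.1 b.2.2 τ i ^ 2 / 2
      = ∑ i, ((modulus d L b.2.1 i : ℝ) * lift d L b.1 b.2.1 b.2.2 θ i ^ 2 / 2
        + (modulus d L b.2.1 i : ℝ) * lift d L b.1 b.2.1 b.2.2 θ i * (L : ℝ) ^ expo d i * (τ - θ)
        + ((modulus d L b.2.1 i : ℝ) * lift d L b.1 b.2.1 b.2.2 τ i * (L : ℝ) ^ expo d i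
          - (modulus d L b.2.1 i : ℝ) * lift d L b.1 b.2.1 b.2.2 θ i * (L : ℝ) ^ expo d i)
            * ((τ - θ) / 2)) :=
    sum_congr rfl fun i _ => by rw [h i]; ring
  rw [sum_add_distrib, sum_add_distrib, ← sum_mul, ← sum_mul, sum_sub_distrib] at key
  simp only [phaseB, chirpPhase, slopeB, key]
  ring

lemma expo_top : expo d d.top = Fintype.card ι - 1 := by
  simp [expo, idx]

lemma slopeB_range {L : ℕ} (hL1 : 1 ≤ L) (hL : 2 * d.J * ∏ i, d.ℓ i ∣ L) {b : Box d}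
    (hb : b ∈ boxes d) {θ : ℝ} (h : Act d L b θ) :
    -((L : ℝ) ^ Fintype.card ι / 2 +
        Fintype.card ι * (L : ℝ) ^ (Fintype.card ι - 1)) ≤ slopeB d L b θ ∧
      slopeB d L b θ ≤ 0 := by
  obtain ⟨hT, hm, -⟩ := (mem_boxes d).1 hb
  have hJ : (0 : ℝ) < d.J := Nat.cast_pos.2 d.J_pos
  have hL1' : (1 : ℝ) ≤ L := by exact_mod_cast hL1
  have hterm : ∀ i, 0 ≤ (modulus d L b.2.1 i : ℝ) * lift d L b.1 b.2.1 b.2.2 θ i ∧
      (modulus d L b.2.1 i : ℝ) * lift d L b.1 b.2.1 b.2.2 θ i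
        ≤ (L : ℝ) * ((b.1 i : ℝ) + 1) / d.J := by
    intro i
    have hm0 : (0 : ℝ) < b.2.1 := Nat.cast_pos.2 (m_pos d hb)
    have hl : (0 : ℝ) < d.ℓ i := Nat.cast_pos.2 (d.ℓ_pos i)
    have e : (modulus d L b.2.1 i : ℝ) * lift d L b.1 b.2.1 b.2.2 θ i
        = (L : ℝ) * ((b.1 i : ℝ) + pos d L b θ i) / d.J := by
      rw [modulus_cast d hm hL, ← pos_eq d hb]; field_simp; ring
    rw [e]
    obtain ⟨h1, h2⟩ := h i
    refine ⟨by positivity, ?_⟩
    gcongr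
  constructor
  · rw [slopeB, neg_le_neg_iff]
    have hsplit := Finset.add_sum_erase univ (fun i => (modulus d L b.2.1 i : ℝ)
      * lift d L b.1 b.2.1 b.2.2 θ i * (L : ℝ) ^ expo d i) (mem_univ d.top)
    rw [← hsplit]
    refine add_le_add ?_ ?_
    · have hj : (b.1 d.top : ℝ) + 1 ≤ (d.J : ℝ) / 2 := by
        obtain ⟨k, hk⟩ := d.J_even
        have h2 := (d.seg _ hT).2
        have : b.1 d.top + 1 ≤ k := by omega
        have : ((b.1 d.top : ℝ) + 1) ≤ k := by exact_mod_cast this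
        rw [hk]; push_cast; linarith
      have hD : 1 ≤ Fintype.card ι := Fintype.card_pos_iff.2 ⟨d.top⟩
      rw [expo_top]
      calc (modulus d L b.2.1 d.top : ℝ) * lift d L b.1 b.2.1 b.2.2 θ d.top
            * (L : ℝ) ^ (Fintype.card ι - 1)
          ≤ (L : ℝ) / 2 * (L : ℝ) ^ (Fintype.card ι - 1) := by
            refine mul_le_mul_of_nonneg_right ((hterm d.top).2.trans ?_) (by positivity)
            rw [div_le_iff₀ hJ]; nlinarith
        _ = (L : ℝ) ^ Fintype.card ι / 2 := by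
            rw [div_mul_eq_mul_div, ← pow_succ', Nat.sub_add_cancel hD]
    · refine (sum_le_sum (g := fun _ => (L : ℝ) ^ (Fintype.card ι - 1)) fun i hi => ?_).trans ?_
      · have hne : i ≠ d.top := (mem_erase.1 hi).1
        have hlt : expo d i + 1 ≤ Fintype.card ι - 1 := by
          have h1 := (idx d i).isLt
          have h2 : expo d i ≠ Fintype.card ι - 1 := fun h => hne ((idx d).injective (Fin.ext
            (show expo d i = expo d d.top by rw [h, expo_top])))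
          unfold expo at h2 ⊢; omega
        calc (modulus d L b.2.1 i : ℝ) * lift d L b.1 b.2.1 b.2.2 θ i * (L : ℝ) ^ expo d i
            ≤ (L : ℝ) * (L : ℝ) ^ expo d i := by
              refine mul_le_mul_of_nonneg_right ((hterm i).2.trans ?_) (by positivity)
              rw [div_le_iff₀ hJ]
              have : ((b.1 i : ℝ) + 1) ≤ d.J := by exact_mod_cast (d.seg _ hT).1 i
              gcongr
          _ = (L : ℝ) ^ (expo d i + 1) := (pow_succ' _ _).symm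
          _ ≤ _ := pow_le_pow_right₀ hL1' hlt
      · rw [sum_const, nsmul_eq_mul]
        refine mul_le_mul_of_nonneg_right ?_ (by positivity)
        exact_mod_cast (card_erase_le).trans (le_of_eq Finset.card_univ)
  · rw [slopeB, neg_nonpos]
    exact sum_nonneg fun i _ => mul_nonneg (hterm i).1 (by positivity)

end Vale.Agent.P110.Exist.Analysis
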