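import Vale.Agent.P110.Exist.Defs
import Vale.Agent.P110.Exist.Chirp

/-! The word of a design and the main term of its polynomial (`PROOF.md`, section N). -/

namespace Vale.Agent.P110.Exist.Analysis

open Finset
open scoped BigOperators ComplexConjugate

theorem fe_eq_ee : fe = ee := rfl

/-- The window: `0` off `(μ, 1 - μ)`, `1` on `[2μ, 1 - 2μ]`. -/
noncomputable def win (μ x : ℝ) : ℝ :=
  Real.smoothTransition ((x - μ) / μ) * Real.smoothTransition ((1 - μ - x) / μ)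

variable {κ : ℝ} {ι : Type} [Fintype ι] [DecidableEq ι] (d : Design κ ι)

/-- An order of the coordinates with `top` last. -/
noncomputable def idx : ι ≃ Fin (Fintype.card ι) :=
  (Fintype.equivFin ι).trans (Equiv.swap (Fintype.equivFin ι d.top)
    ⟨Fintype.card ι - 1, Nat.sub_lt (Fintype.card_pos_iff.2 ⟨d.top⟩) one_pos⟩)

/-- The exponent of a coordinate. -/
noncomputable def expo (i : ι) : ℕ := (idx d i).val

/-- The digit vector of `t` in base `L`. -/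
noncomputable def digits (L t : ℕ) (i : ι) : ℕ := t / L ^ expo d i % L

/-- Residues of a digit vector. -/
def resid (x : ι → ℕ) : Res d.ℓ := fun i => ⟨x i % d.ℓ i, Nat.mod_lt _ (d.ℓ_pos i)⟩

/-- The coefficient at a digit vector. -/
noncomputable def wordAt (μ : ℝ) (L : ℕ) (x : ι → ℕ) : ℝ :=
  ∑ j ∈ d.T, (∏ i, win μ ((d.J : ℝ) * x i / L - j i)) *
    ∑ m ∈ d.S, 2 * (d.c m * d.g j m (resid d x) *
      fe ((m : ℝ) * ∑ i, (x i : ℝ) ^ 2 / (2 * (d.ℓ i : ℝ) * L))).re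

/-- The coefficient sequence. -/
noncomputable def word (μ : ℝ) (L t : ℕ) : ℝ := wordAt d μ L (digits d L t)

/-- The modulus of harmonic `m` in coordinate `i`. -/
def modulus (L m : ℕ) (i : ι) : ℕ := d.ℓ i * L / m

/-- The lift of the shifted frequency of coordinate `i` to its window. -/
noncomputable def lift (L : ℕ) (j : ι → ℕ) (m : ℕ) (u : Res d.ℓ) (θ : ℝ) (i : ι) : ℝ :=
  (L : ℝ) ^ expo d i * θ - ((u i : ℕ) : ℝ) / d.ℓ i -
    ⌊(L : ℝ) ^ expo d i * θ - ((u i : ℕ) : ℝ) / d.ℓ i - (m : ℝ) * j i / (d.J * d.ℓ i)⌋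

/-- The envelope of a box. -/
noncomputable def env (μ : ℝ) (L : ℕ) (j : ι → ℕ) (m : ℕ) (u : Res d.ℓ) (θ : ℝ) : ℝ :=
  ∏ i, win μ ((d.J : ℝ) * d.ℓ i * lift d L j m u θ i / m - j i)

/-- The amplitude of a box. -/
noncomputable def amp (L : ℕ) (j : ι → ℕ) (m : ℕ) (u : Res d.ℓ) : ℂ :=
  (Real.sqrt 2 : ℂ) * d.c m * coef (d.g j m) u *
    ∏ i, (gauss0 (modulus d L m i) / (Real.sqrt L : ℂ))

/-- The height of a box. -/
noncomputable def height (j : ι → ℕ) (m : ℕ) (u : Res d.ℓ) : ℝ :=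
  Real.sqrt 2 * ‖d.c m‖ * ‖coef (d.g j m) u‖ * ∏ i, Real.sqrt ((d.ℓ i : ℝ) / m)

/-- The quadratic phase of a box, without its constant. -/
noncomputable def chirpPhase (L : ℕ) (j : ι → ℕ) (m : ℕ) (u : Res d.ℓ) (θ : ℝ) : ℝ :=
  -(∑ i, (modulus d L m i : ℝ) * lift d L j m u θ i ^ 2 / 2)

/-- The boxes of positive harmonics. -/
noncomputable def plusF (μ : ℝ) (L : ℕ) (θ : ℝ) : ℂ :=
  ∑ j ∈ d.T, ∑ m ∈ d.S, ∑ u : Res d.ℓ,
    amp d L j m u * fe (chirpPhase d L j m u θ) * (env d μ L j m u θ : ℂ)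

/-- The main term of the normalised polynomial. -/
noncomputable def mainF (μ : ℝ) (L : ℕ) (θ : ℝ) : ℂ := plusF d μ L θ + conj (plusF d μ L (-θ))

/-- Bound of the coefficients and expansion of the polynomial (module Expand). -/
def ExpandStatement : Prop :=
  ∀ μ : ℝ, 0 < μ → μ < 1 / 4 →
    (∀ L t : ℕ, |word d μ L t| ≤ 1) ∧
    ∀ ε : ℝ, 0 < ε → ∃ L₀ : ℕ, ∀ L N : ℕ, L₀ ≤ L → 2 * d.J * ∏ i, d.ℓ i ∣ L →
      2 * N = L ^ Fintype.card ι → ∀ θ : ℝ,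
        ‖evalP (word d μ L) N (-(2 * Real.pi * θ)) - (Real.sqrt N : ℂ) * mainF d μ L θ‖ ≤
          ε * Real.sqrt N

/-- Product of dilated periodic functions (module Equi). -/
def EquiStatement : Prop :=
  ∀ (D : ℕ) (f : Fin D → ℝ → ℝ) (K : ℝ) (L : ℕ), 0 < L →
    (∀ i x, f i (x + 1) = f i x ∧ 0 ≤ f i x ∧ f i x ≤ 1) →
    (∀ i x y, |f i x - f i y| ≤ K * |x - y|) →
    |(∫ θ in (0 : ℝ)..1, ∏ i, f i ((L : ℝ) ^ (i : ℕ) * θ)) - ∏ i, ∫ θ in (0 : ℝ)..1, f i θ| ≤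
      2 * D * K / L

end Vale.Agent.P110.Exist.Analysis
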