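import Vale.Agent.P110.Exist.Analysis.Defs

/-!
# The word of a design and its Fourier transform

The polynomial of the word is, up to `O(1/L)` relative error, a sum over segments, harmonics,
spikes and signs of products of one window value and one unimodular phase per coordinate.
-/

namespace Vale.Agent.P110.Exist.Analysis

open Finset
open scoped ComplexConjugate

variable {κ : ℝ} {ι : Type} [Fintype ι] [DecidableEq ι]

/-- The window at coordinate values `x`. -/
noncomputable def winProd (d : Design κ ι) (W : ℝ → ℝ) (L : ℕ) (j x : ι → ℕ) : ℝ :=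
  ∏ i, W ((d.J : ℝ) * x i / L - j i)

/-- The phase of the harmonic `1` at coordinate values `x`. -/
noncomputable def quadPhase (d : Design κ ι) (L : ℕ) (x : ι → ℕ) : ℝ :=
  ∑ i, (x i : ℝ) ^ 2 / (2 * (d.ℓ i : ℝ) * L)

lemma expo_top_last (d : Design κ ι) : expo d d.top = Fintype.card ι - 1 := by
  simp [expo, idx]

lemma win_nonneg_le (μ x : ℝ) : 0 ≤ win μ x ∧ win μ x ≤ 1 :=
  ⟨mul_nonneg (Real.smoothTransition.nonneg _) (Real.smoothTransition.nonneg _),
    mul_le_one₀ (Real.smoothTransition.le_one _) (Real.smoothTransition.nonneg _)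
      (Real.smoothTransition.le_one _)⟩

lemma win_support {μ : ℝ} (hμ : 0 < μ) (x : ℝ) (h : win μ x ≠ 0) : 0 < x ∧ x < 1 := by
  obtain ⟨h1, h2⟩ := mul_ne_zero_iff.1 h
  constructor
  · by_contra hc
    exact h1 (Real.smoothTransition.zero_of_nonpos
      (div_nonpos_of_nonpos_of_nonneg (by linarith) hμ.le))
  · by_contra hc
    exact h2 (Real.smoothTransition.zero_of_nonpos
      (div_nonpos_of_nonpos_of_nonneg (by linarith) hμ.le))

lemma contDiff_win (μ : ℝ) : ContDiff ℝ 4 (win μ) :=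
  (Real.smoothTransition.contDiff.comp (by fun_prop)).mul
    (Real.smoothTransition.contDiff.comp (by fun_prop))

lemma pos_of_mem (d : Design κ ι) {m : ℕ} (hm : m ∈ d.S) : 0 < m := (d.S_dvd m hm).1.pos

lemma modulus_facts (d : Design κ ι) {L : ℕ} (hL : 0 < L) (hdvd : 2 * d.J * ∏ i, d.ℓ i ∣ L)
    {m : ℕ} (hm : m ∈ d.S) (i : ι) :
    0 < d.ℓ i * L / m ∧ Even (d.ℓ i * L / m) ∧
      ((d.ℓ i * L / m : ℕ) : ℝ) = (d.ℓ i : ℝ) * L / m := by
  have hm0 := pos_of_mem d hm
  have h2m : 2 * m ∣ L :=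
    ((mul_dvd_mul_left 2 (d.S_dvd m hm).2).trans (dvd_mul_right _ _)).trans hdvd
  obtain ⟨k, hk⟩ := h2m
  have hq : d.ℓ i * L / m = 2 * (d.ℓ i * k) := by
    rw [hk, show d.ℓ i * (2 * m * k) = m * (2 * (d.ℓ i * k)) by ring, Nat.mul_div_cancel_left _ hm0]
  have hk0 : 0 < k := by rcases Nat.eq_zero_or_pos k with rfl | h <;> simp_all
  refine ⟨hq ▸ by have := d.ℓ_pos i; positivity, hq ▸ ⟨d.ℓ i * k, by ring⟩, ?_⟩
  rw [hq, hk]
  have : (m : ℝ) ≠ 0 := by exact_mod_cast hm0.ne'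
  push_cast
  field_simp

/-- Fourier inversion on residue vectors. -/
lemma coef_inversion {ℓ : ι → ℕ} (hℓ : ∀ i, 0 < ℓ i) (g : Res ℓ → ℂ) (r : Res ℓ) :
    ∑ u : Res ℓ, coef g u * ∏ i, fe (((u i : ℕ) : ℝ) * ((r i : ℕ) : ℝ) / ℓ i) = g r := by
  have hP : (∏ i, (ℓ i : ℂ)) ≠ 0 :=
    prod_ne_zero_iff.2 fun i _ => by exact_mod_cast (hℓ i).ne'
  have hsplit : ∀ (u s : Res ℓ),
      fe (-∑ i, ((u i : ℕ) : ℝ) * ((s i : ℕ) : ℝ) / (ℓ i : ℝ))
        * ∏ i, fe (((u i : ℕ) : ℝ) * ((r i : ℕ) : ℝ) / ℓ i)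
      = ∏ i, ee ((((r i : ℕ) : ℤ) - ((s i : ℕ) : ℤ) : ℤ) * ((u i : ℕ) : ℝ) / ℓ i) := by
    intro u s
    have he : ∀ (f : ι → ℝ), ee (∑ i, f i) = ∏ i, ee (f i) := fun f => by
      simp only [ee, ← Complex.exp_sum]
      congr 1
      push_cast
      rw [mul_sum, sum_mul]
    simp only [fe_eq_ee]
    rw [← sum_neg_distrib, he, ← prod_mul_distrib]
    refine prod_congr rfl fun i _ => ?_
    rw [← ee_add]
    congr 1
    push_cast; ring
  have horth : ∀ s : Res ℓ, ∑ u : Res ℓ, ∏ i,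
      ee ((((r i : ℕ) : ℤ) - ((s i : ℕ) : ℤ) : ℤ) * ((u i : ℕ) : ℝ) / ℓ i)
      = if s = r then ∏ i, (ℓ i : ℂ) else 0 := by
    intro s
    rw [← Fintype.prod_sum (fun i (v : Fin (ℓ i)) =>
      ee ((((r i : ℕ) : ℤ) - ((s i : ℕ) : ℤ) : ℤ) * ((v : ℕ) : ℝ) / ℓ i))]
    have hc : ∀ i, ∑ v : Fin (ℓ i), ee ((((r i : ℕ) : ℤ) - ((s i : ℕ) : ℤ) : ℤ) * ((v : ℕ) : ℝ) / ℓ i)
        = if (ℓ i : ℤ) ∣ ((r i : ℕ) : ℤ) - ((s i : ℕ) : ℤ) then (ℓ i : ℂ) else 0 := fun i => by
      rw [Fin.sum_univ_eq_sum_range (fun v : ℕ => ee ((((r i : ℕ) : ℤ) - ((s i : ℕ) : ℤ) : ℤ) * (v : ℝ) / ℓ i)),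
        sum_ee_mul _ (hℓ i)]
    simp only [hc]
    split_ifs with h
    · subst h; simp
    · obtain ⟨i, hi⟩ := Function.ne_iff.1 h
      refine prod_eq_zero (mem_univ i) (if_neg fun hd => hi (Fin.ext ?_))
      have h1 := (r i).isLt
      have h2 := (s i).isLt
      have := Int.eq_zero_of_abs_lt_dvd hd (abs_lt.2 ⟨by omega, by omega⟩)
      omega
  simp only [coef, mul_assoc, sum_mul, hsplit]
  rw [← mul_sum, sum_comm, sum_congr rfl fun s _ => by rw [← mul_sum, horth s],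
    sum_eq_single_of_mem r (mem_univ r) fun s _ hs => by simp [hs], if_pos rfl]
  field_simp

lemma winProd_ne_zero (d : Design κ ι) {W : ℝ → ℝ} (hWs : ∀ x, W x ≠ 0 → 0 < x ∧ x < 1)
    {L : ℕ} (hL : 0 < L) {j x : ι → ℕ} (h : winProd d W L j x ≠ 0) (i : ι) :
    j i * L < d.J * x i ∧ d.J * x i < (j i + 1) * L := by
  obtain ⟨h1, h2⟩ := hWs _ (prod_ne_zero_iff.1 h i (mem_univ i))
  have hL' : (0 : ℝ) < L := by exact_mod_cast hL
  rw [sub_pos, lt_div_iff₀ hL'] at h1
  rw [sub_lt_iff_lt_add', div_lt_iff₀ hL'] at h2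
  exact ⟨by exact_mod_cast h1, by exact_mod_cast h2⟩

lemma wordAt_eq (d : Design κ ι) (μ : ℝ) (L : ℕ) (x : ι → ℕ) :
    wordAt d μ L x = ∑ j ∈ d.T, winProd d (win μ) L j x *
      ∑ m ∈ d.S, 2 * (d.c m * d.g j m (resid d x) * fe (m * quadPhase d L x)).re := rfl

lemma abs_wordAt_le (d : Design κ ι) {μ : ℝ} (hμ : 0 < μ) (L : ℕ) (x : ι → ℕ) :
    |wordAt d μ L x| ≤ 1 := by
  have hone : ∀ j ∈ d.T,
      |∑ m ∈ d.S, 2 * (d.c m * d.g j m (resid d x) * fe (m * quadPhase d L x)).re| ≤ 1 := by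
    intro j hj
    obtain ⟨n, w, ξ, hw0, hw1, hg⟩ := d.mom j hj (resid d x)
    have hrw : ∀ m ∈ d.S, 2 * (d.c m * d.g j m (resid d x) * fe (m * quadPhase d L x)).re
        = ∑ k, w k * (2 * (d.c m * fe (m * (ξ k + quadPhase d L x))).re) := by
      intro m hm
      have hgm : d.g j m (resid d x) = ∑ k, (w k : ℂ) * fe (m * ξ k) := hg m hm
      rw [hgm, mul_sum, sum_mul, Complex.re_sum, mul_sum]
      refine sum_congr rfl fun k _ => ?_
      rw [mul_left_comm (d.c m), mul_assoc (w k : ℂ), mul_assoc (d.c m), Complex.re_ofReal_mul, fe_eq_ee,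
        ← ee_add, ← mul_add]
      ring
    rw [sum_congr rfl hrw, sum_comm]
    refine (abs_sum_le_sum_abs _ _).trans ((sum_le_sum fun k _ => ?_).trans_eq hw1)
    rw [← mul_sum, abs_mul, abs_of_nonneg (hw0 k)]
    exact mul_le_of_le_one_right (hw0 k) (d.wave _)
  by_cases h : ∀ j ∈ d.T, winProd d (win μ) L j x = 0
  · rw [wordAt_eq, sum_eq_zero fun j hj => by rw [h j hj, zero_mul], abs_zero]
    exact zero_le_one
  push Not at h
  obtain ⟨j, hj, hne⟩ := h
  have hL : 0 < L := by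
    rcases Nat.eq_zero_or_pos L with rfl | hL
    · obtain ⟨h1, -⟩ := win_support hμ _ (prod_ne_zero_iff.1 hne d.top (mem_univ _))
      rw [Nat.cast_zero, div_zero] at h1
      linarith [Nat.cast_nonneg (α := ℝ) (j d.top)]
    · exact hL
  rw [wordAt_eq, sum_eq_single_of_mem j hj]
  · have h0 : 0 ≤ winProd d (win μ) L j x := prod_nonneg fun i _ => (win_nonneg_le μ _).1
    have h1 : winProd d (win μ) L j x ≤ 1 :=
      prod_le_one (fun i _ => (win_nonneg_le μ _).1) fun i _ => (win_nonneg_le μ _).2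
    rw [abs_mul, abs_of_nonneg h0]
    calc winProd d (win μ) L j x * _ ≤ 1 * 1 := mul_le_mul h1 (hone j hj) (abs_nonneg _) zero_le_one
      _ = 1 := one_mul 1
  · intro j' _ hjj
    by_contra hc
    refine hjj (funext fun i => ?_)
    have a := winProd_ne_zero d (win_support hμ) hL hne i
    have b := winProd_ne_zero d (win_support hμ) hL (left_ne_zero_of_mul hc) i
    have c1 : j i * L < (j' i + 1) * L := a.1.trans b.2
    have c2 : j' i * L < (j i + 1) * L := b.1.trans a.2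
    have := Nat.lt_of_mul_lt_mul_right c1
    have := Nat.lt_of_mul_lt_mul_right c2
    omega

/-- The positive harmonics, summed over all digit vectors. -/
noncomputable def plusSum (d : Design κ ι) (W : ℝ → ℝ) (L : ℕ) (y : ι → ℝ) : ℂ :=
  ∑ j ∈ d.T, ∑ m ∈ d.S, ∑ x : ι → Fin L,
    d.c m * (winProd d W L j (fun i => x i) : ℂ) *
      (d.g j m (resid d fun i => x i) * fe (m * quadPhase d L (fun i => x i))) *
      ∏ i, fe (-((x i : ℕ) * y i))

lemma evalP_word_eq (d : Design κ ι) {μ : ℝ} (hμ : 0 < μ) {L : ℕ} (hL : 0 < L)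
    (hev : Even L) (θ : ℝ) :
    evalP (word d μ L) (L ^ Fintype.card ι / 2) (-(2 * Real.pi * θ))
      = plusSum d (win μ) L (fun i => (L : ℝ) ^ expo d i * θ)
        + conj (plusSum d (win μ) L (fun i => (L : ℝ) ^ expo d i * -θ)) := by
  set D := Fintype.card ι with hD
  have hD0 : 0 < D := lt_of_lt_of_le two_pos d.two_le
  have hzero : ∀ k, L ^ D / 2 ≤ k → k < L ^ D → word d μ L k = 0 := by
    intro k hk hkl
    · rw [word, wordAt_eq]
      refine sum_eq_zero fun j hj => mul_eq_zero_of_left ?_ _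
      by_contra hne
      obtain ⟨h1, h2⟩ := winProd_ne_zero d (win_support hμ) hL hne d.top
      obtain ⟨c, rfl⟩ := hev
      have hpos : 0 < (c + c) ^ (D - 1) := pow_pos hL _
      have hpow : (c + c) ^ D = (c + c) ^ (D - 1) * (c + c) := by
        rw [← pow_succ, Nat.sub_add_cancel hD0]
      have hdig : digits d (c + c) k d.top = k / (c + c) ^ (D - 1) := by
        rw [digits, expo_top_last, ← hD, Nat.mod_eq_of_lt]
        rw [Nat.div_lt_iff_lt_mul hpos, mul_comm, ← hpow]; exact hkl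
      have hc : c ≤ digits d (c + c) k d.top := by
        rw [hdig, Nat.le_div_iff_mul_le hpos]
        refine le_trans (le_of_eq ?_) hk
        rw [hpow, ← two_mul c, show (2 * c) ^ (D - 1) * (2 * c) = 2 * (c * (2 * c) ^ (D - 1)) by ring,
          Nat.mul_div_cancel_left _ two_pos]
      have h3 := (d.seg j hj).2
      obtain ⟨J2, hJ2⟩ := d.J_even
      have : (j d.top + 1) * (c + c) ≤ d.J * c := by
        calc (j d.top + 1) * (c + c) ≤ J2 * (c + c) := Nat.mul_le_mul_right _ (by omega)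
          _ = d.J * c := by rw [hJ2]; ring
      have := Nat.mul_le_mul_left d.J hc
      omega
  have hfe : ∀ k : ℕ, Complex.exp ((k : ℂ) * Complex.I * ((-(2 * Real.pi * θ) : ℝ) : ℂ))
      = fe (-((k : ℝ) * θ)) := fun k => by
    rw [fe]; congr 1; push_cast; ring
  have hext : evalP (word d μ L) (L ^ D / 2) (-(2 * Real.pi * θ))
      = ∑ k : Fin (L ^ D), (word d μ L k : ℂ) * fe (-((k : ℕ) * θ)) := by
    rw [Fin.sum_univ_eq_sum_range (fun k : ℕ => (word d μ L k : ℂ) * fe (-((k : ℝ) * θ))), evalP]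
    refine (sum_congr rfl fun k _ => by rw [hfe]).trans
      (sum_subset (fun k hk => mem_range.2 ?_) fun k hk0 hk => ?_)
    · exact lt_of_lt_of_le (mem_range.1 hk) (Nat.div_le_self _ _)
    · rw [hzero k (not_lt.1 fun h => hk (mem_range.2 h)) (mem_range.1 hk0)]; simp
  set F : (ι → Fin L) ≃ Fin (L ^ D) := (Equiv.arrowCongr (idx d) (Equiv.refl _)).trans finFunctionFinEquiv
    with hF
  have hval : ∀ x : ι → Fin L, ((F x : ℕ) : ℝ) * θ = ∑ i, ((x i : ℕ) : ℝ) * ((L : ℝ) ^ expo d i * θ) := by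
    intro x
    simp only [hF, Equiv.trans_apply, finFunctionFinEquiv_apply, Equiv.arrowCongr_apply,
      Equiv.coe_refl, Function.comp_apply, id]
    push_cast
    rw [sum_mul, ← (idx d).sum_comp]
    exact sum_congr rfl fun i _ => by simp [expo]; ring
  have hdigit : ∀ x : ι → Fin L, digits d L (F x) = fun i => (x i : ℕ) := by
    intro x
    funext i
    rw [digits, expo, ← finFunctionFinEquiv_symm_apply_val]
    simp [hF]
  rw [hext, ← F.sum_comp]
  have hw : ∀ x : ι → Fin L, word d μ L (F x) = wordAt d μ L (fun i => (x i : ℕ)) := fun x => by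
    rw [word, hdigit]
  have hexp : ∀ (f : ι → ℝ), fe (-∑ i, f i) = ∏ i, fe (-f i) := fun f => by
    simp only [fe, ← Complex.exp_sum]
    congr 1
    push_cast
    rw [← sum_neg_distrib, mul_sum, sum_mul]
  simp only [hw, hval, hexp, wordAt_eq, plusSum, map_sum, map_mul, map_prod, Complex.ofReal_sum,
    Complex.ofReal_mul, Complex.conj_ofReal]
  rw [sum_congr rfl fun x _ => by rw [sum_mul], sum_comm, ← sum_add_distrib]
  refine sum_congr rfl fun j _ => ?_
  rw [← sum_add_distrib]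
  simp only [mul_sum, sum_mul]
  rw [sum_comm]
  refine sum_congr rfl fun m _ => ?_
  rw [← sum_add_distrib]
  refine sum_congr rfl fun x _ => ?_
  have hprod : ∏ i, conj (fe (-((x i : ℕ) * ((L : ℝ) ^ expo d i * -θ))))
      = ∏ i, fe (-((x i : ℕ) * ((L : ℝ) ^ expo d i * θ))) := by
    refine prod_congr rfl fun i _ => ?_
    rw [fe_eq_ee, ← ee_neg]
    congr 1
    ring
  rw [hprod, Complex.re_eq_add_conj]
  simp only [map_mul, Complex.ofReal_ofNat]
  ring

lemma norm_prod_sub_prod_le {α : Type*} (s : Finset α) (x a : α → ℂ) {ε : ℝ} (hε : 0 ≤ ε)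
    (ha : ∀ i ∈ s, ‖a i‖ ≤ 1) (hx : ∀ i ∈ s, ‖x i - a i‖ ≤ ε) :
    ‖∏ i ∈ s, x i - ∏ i ∈ s, a i‖ ≤ s.card * ε * (1 + ε) ^ s.card := by
  induction s using Finset.cons_induction with
  | empty => simp
  | cons i s hi ih =>
    have hxb : ‖∏ k ∈ s, x k‖ ≤ (1 + ε) ^ s.card := by
      rw [norm_prod, ← prod_const]
      refine prod_le_prod (fun k _ => norm_nonneg _) fun k hk => ?_
      calc ‖x k‖ = ‖a k + (x k - a k)‖ := by rw [add_sub_cancel]
        _ ≤ 1 + ε := (norm_add_le _ _).trans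
          (add_le_add (ha k (by simp [hk])) (hx k (by simp [hk])))
    have ih' := ih (fun k hk => ha k (by simp [hk])) (fun k hk => hx k (by simp [hk]))
    rw [prod_cons, prod_cons, card_cons,
      show x i * ∏ k ∈ s, x k - a i * ∏ k ∈ s, a k
        = (x i - a i) * ∏ k ∈ s, x k + a i * (∏ k ∈ s, x k - ∏ k ∈ s, a k) by ring]
    refine (norm_add_le _ _).trans ?_
    rw [norm_mul, norm_mul]
    calc ‖x i - a i‖ * ‖∏ k ∈ s, x k‖ + ‖a i‖ * ‖∏ k ∈ s, x k - ∏ k ∈ s, a k‖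
        ≤ ε * (1 + ε) ^ s.card + 1 * (s.card * ε * (1 + ε) ^ s.card) :=
          add_le_add (mul_le_mul (hx i (by simp)) hxb (norm_nonneg _) hε)
            (mul_le_mul (ha i (by simp)) ih' (norm_nonneg _) zero_le_one)
      _ = ((s.card + 1 : ℕ) : ℝ) * ε * (1 + ε) ^ s.card := by push_cast; ring
      _ ≤ ((s.card + 1 : ℕ) : ℝ) * ε * (1 + ε) ^ (s.card + 1) :=
          mul_le_mul_of_nonneg_left (pow_le_pow_right₀ (by linarith) (Nat.le_succ _)) (by positivity)

/-- **The expansion.** -/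
theorem expandStatement (d : Design κ ι) : ExpandStatement d := by
  intro μ hμ _
  refine ⟨fun L t => abs_wordAt_le d hμ L _, fun ε hε => ?_⟩
  have hW : ContDiff ℝ 4 (win μ) := contDiff_win μ
  have hW01 := win_nonneg_le μ
  have hWs := win_support hμ
  set W : ℝ → ℝ := win μ with hWdef
  have hΦC : ∀ (j : ι → ℕ) (m : ℕ) (i : ι),
      ContDiff ℝ 4 (fun z : ℝ => (W ((d.J : ℝ) * d.ℓ i * z / m - j i) : ℂ)) := fun j m i =>
    Complex.ofRealCLM.contDiff.comp (hW.comp (by fun_prop))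
  have hΦs : ∀ (j : ι → ℕ) (m : d.S) (i : ι) (z : ℝ),
      (W ((d.J : ℝ) * d.ℓ i * z / (m : ℕ) - j i) : ℂ) ≠ 0 →
      ((m : ℕ) : ℝ) * j i / (d.J * d.ℓ i) < z
        ∧ z < ((m : ℕ) : ℝ) * j i / (d.J * d.ℓ i) + 1 := by
    intro j m i z hz
    obtain ⟨h1, h2⟩ := hWs _ (Complex.ofReal_ne_zero.1 hz)
    have hJ : (0 : ℝ) < d.J * d.ℓ i := by exact_mod_cast Nat.mul_pos d.J_pos (d.ℓ_pos i)
    have hm0 : (0 : ℝ) < (m : ℕ) := by exact_mod_cast pos_of_mem d m.2
    have hmJ : ((m : ℕ) : ℝ) ≤ (d.J : ℝ) * d.ℓ i := by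
      exact_mod_cast (Nat.le_of_dvd d.J_pos (d.S_dvd _ m.2).2).trans
        (Nat.le_mul_of_pos_right _ (d.ℓ_pos i))
    rw [sub_pos, lt_div_iff₀ hm0] at h1
    rw [sub_lt_iff_lt_add, div_lt_iff₀ hm0] at h2
    constructor
    · rw [div_lt_iff₀ hJ]; linarith
    · rw [div_add_one hJ.ne', lt_div_iff₀ hJ]; linarith
  choose Cc hCc0 hCc using fun (j : d.T) (m : d.S) (i : ι) =>
    chirp_sum_mod (hΦC (j : ι → ℕ) (m : ℕ) i) (hΦs (j : ι → ℕ) m i)
  obtain ⟨Cm, hCm⟩ : ∃ Cm : ℝ, Cm = (d.J : ℝ) * ∑ j, ∑ m, ∑ i, Cc j m i := ⟨_, rfl⟩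
  have hCm0 : 0 ≤ Cm :=
    hCm ▸ mul_nonneg (Nat.cast_nonneg _)
      (sum_nonneg fun j _ => sum_nonneg fun m _ => sum_nonneg fun i _ => hCc0 j m i)
  obtain ⟨B, hB⟩ : ∃ B : ℝ, B = (Fintype.card ι : ℝ) * Cm * (1 + Cm) ^ Fintype.card ι *
      ∑ j ∈ d.T, ∑ m ∈ d.S, ∑ u : Res d.ℓ, height d j m u := ⟨_, rfl⟩
  have hB0 : 0 ≤ B := hB ▸ mul_nonneg (by positivity)
    (sum_nonneg fun j _ => sum_nonneg fun m _ => sum_nonneg fun u _ => mul_nonneg (by positivity)
      (prod_nonneg fun i _ => Real.sqrt_nonneg _))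
  obtain ⟨L₀, hL₀⟩ := exists_nat_ge (max 1 (2 * B / ε))
  refine ⟨L₀, fun L N hLL hdvd hN θ => ?_⟩
  have hL' : (1 : ℝ) ≤ L := le_trans ((le_max_left _ _).trans hL₀) (by exact_mod_cast hLL)
  have hL : 0 < L := by exact_mod_cast lt_of_lt_of_le zero_lt_one hL'
  have hev : Even L := even_iff_two_dvd.2
    (((dvd_mul_right 2 d.J).trans (dvd_mul_right _ _)).trans hdvd)
  have hNeq : N = L ^ Fintype.card ι / 2 := by omega
  have hBε : 2 * B / L ≤ ε := by
    have h1 : 2 * B / ε ≤ (L : ℝ) :=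
      ((le_max_right _ _).trans hL₀).trans (by exact_mod_cast hLL)
    rw [div_le_iff₀ hε] at h1
    rw [div_le_iff₀ (by linarith)]
    linarith
  subst hNeq
  rw [evalP_word_eq d hμ hL hev θ, mainF]
  obtain ⟨sN, hsN⟩ : ∃ sN : ℝ, sN = Real.sqrt ((L ^ Fintype.card ι / 2 : ℕ) : ℝ) := ⟨_, rfl⟩
  rw [← hsN]
  have hsN0 : 0 ≤ sN := hsN ▸ Real.sqrt_nonneg _
  have hmain : ∀ θ : ℝ, ‖plusSum d W L (fun i => (L : ℝ) ^ expo d i * θ)
      - (sN : ℂ) * plusF d μ L θ‖ ≤ B / L * sN := by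
    intro θ
    set y : ι → ℝ := fun i => (L : ℝ) ^ expo d i * θ with hy
    have hexp : ∀ (j : ι → ℕ) (m : ℕ), (∑ x : ι → Fin L,
        d.c m * (winProd d W L j (fun i => x i) : ℂ) *
          (d.g j m (resid d fun i => x i) * fe (m * quadPhase d L (fun i => x i))) *
          ∏ i, fe (-((x i : ℕ) * y i)))
        = ∑ u : Res d.ℓ, d.c m * coef (d.g j m) u * ∏ i, ∑ t : Fin L,
          (W ((d.J : ℝ) * (t : ℕ) / L - j i) : ℂ) *
            fe ((m : ℝ) * (t : ℕ) ^ 2 / (2 * d.ℓ i * L)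
              - (y i - ((u i : ℕ) : ℝ) / d.ℓ i) * (t : ℕ)) := by
      intro j m
      simp only [Fintype.prod_sum, mul_sum]
      rw [sum_comm]
      refine sum_congr rfl fun x _ => ?_
      conv_lhs => rw [← coef_inversion d.ℓ_pos (d.g j m) (resid d fun i => x i)]
      rw [sum_mul, mul_sum, sum_mul]
      refine sum_congr rfl fun u _ => ?_
      have h1 : fe (m * quadPhase d L (fun i => x i))
          = ∏ i, fe ((m : ℝ) * ((x i : ℕ) : ℝ) ^ 2 / (2 * d.ℓ i * L)) := by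
        simp only [fe, ← Complex.exp_sum, quadPhase]
        congr 1
        rw [mul_sum, mul_sum, Complex.ofReal_sum, sum_mul]
        exact sum_congr rfl fun i _ => by push_cast; ring
      have h2 : ∀ i, fe (((u i : ℕ) : ℝ) * ((resid d (fun i => (x i : ℕ)) i : ℕ) : ℝ) / d.ℓ i)
          = fe (((u i : ℕ) : ℝ) * (x i : ℕ) / d.ℓ i) := fun i => by
        have hl : (d.ℓ i : ℝ) ≠ 0 := by exact_mod_cast (d.ℓ_pos i).ne'
        have hm := Nat.mod_add_div (x i : ℕ) (d.ℓ i)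
        simp only [resid, fe_eq_ee]
        conv_rhs => rw [← hm]
        generalize (x i : ℕ) / d.ℓ i = q
        rw [← ee_add_int (((u i : ℕ) : ℝ) * (((x i : ℕ) % d.ℓ i : ℕ) : ℝ) / d.ℓ i)
          (((u i : ℕ) * q : ℕ) : ℤ)]
        congr 1
        push_cast
        field_simp
      rw [h1, prod_congr rfl fun i _ => h2 i]
      simp only [winProd, Complex.ofReal_prod]
      rw [show ∀ a b c p q r : ℂ, a * b * (c * p * q) * r = a * c * (b * p * q * r) from
        fun a b c p q r => by ring, ← prod_mul_distrib, ← prod_mul_distrib, ← prod_mul_distrib]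
      congr 1
      refine prod_congr rfl fun i _ => ?_
      simp only [fe_eq_ee, mul_assoc, ← ee_add]
      congr 2
      ring
    have hone : ∀ (j : d.T) (m : d.S) (u : Res d.ℓ),
        ‖(∏ i, ∑ t : Fin L, (W ((d.J : ℝ) * (t : ℕ) / L - (j : ι → ℕ) i) : ℂ) *
            fe (((m : ℕ) : ℝ) * (t : ℕ) ^ 2 / (2 * d.ℓ i * L)
              - (y i - ((u i : ℕ) : ℝ) / d.ℓ i) * (t : ℕ)))
          - ((∏ i, Real.sqrt ((d.ℓ i * L / (m : ℕ) : ℕ) : ℝ) : ℝ) : ℂ) *
            ((∏ i, (gauss0 (d.ℓ i * L / (m : ℕ)) / (Real.sqrt ((d.ℓ i * L / (m : ℕ) : ℕ) : ℝ) : ℂ))) *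
            fe (chirpPhase d L j m u θ) * (env d μ L j m u θ : ℂ))‖
        ≤ (∏ i, Real.sqrt ((d.ℓ i * L / (m : ℕ) : ℕ) : ℝ)) *
            ((Fintype.card ι : ℝ) * Cm * (1 + Cm) ^ Fintype.card ι / L) := by
      intro j m u
      set s : ι → ℝ := fun i => Real.sqrt ((d.ℓ i * L / (m : ℕ) : ℕ) : ℝ) with hs
      have hs0 : ∀ i, 0 < s i := fun i =>
        Real.sqrt_pos.2 (by exact_mod_cast (modulus_facts d hL hdvd m.2 i).1)
      set av : ι → ℂ := fun i => gauss0 (d.ℓ i * L / (m : ℕ)) / (s i : ℂ) *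
        fe (-(((d.ℓ i * L / (m : ℕ) : ℕ) : ℝ) * lift d L j m u θ i ^ 2) / 2) *
        (W ((d.J : ℝ) * d.ℓ i * lift d L j m u θ i / (m : ℕ) - (j : ι → ℕ) i) : ℂ) with hav
      set xv : ι → ℂ := fun i => (∑ t : Fin L, (W ((d.J : ℝ) * (t : ℕ) / L - (j : ι → ℕ) i) : ℂ) *
        fe (((m : ℕ) : ℝ) * (t : ℕ) ^ 2 / (2 * d.ℓ i * L)
          - (y i - ((u i : ℕ) : ℝ) / d.ℓ i) * (t : ℕ))) / (s i : ℂ) with hxv
      have hm0 : (0 : ℝ) < (m : ℕ) := by exact_mod_cast pos_of_mem d m.2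
      have hdiff : ∀ i, ‖xv i - av i‖ ≤ Cm / L := by
        intro i
        obtain ⟨hM0, hMev, hMc⟩ := modulus_facts d hL hdvd m.2 i
        obtain ⟨M, hM⟩ : ∃ M : ℕ, M = d.ℓ i * L / (m : ℕ) := ⟨_, rfl⟩
        rw [← hM] at hM0 hMev hMc
        have hM' : (0 : ℝ) < M := by exact_mod_cast hM0
        have hl : (0 : ℝ) < d.ℓ i := by exact_mod_cast d.ℓ_pos i
        have key := hCc j m i M hM0 hMev (y i - ((u i : ℕ) : ℝ) / d.ℓ i)
          ((univ : Finset (Fin L)).image fun t : Fin L => ((t : ℕ) : ℤ)) (fun t ht => by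
            obtain ⟨h1, h2⟩ := hWs _ (Complex.ofReal_ne_zero.1 ht)
            have e1 : (d.J : ℝ) * d.ℓ i * ((t : ℝ) / M) / (m : ℕ) = d.J * t / L := by
              rw [hMc]; field_simp
            rw [e1, sub_pos, lt_div_iff₀ (by linarith)] at h1
            rw [e1, sub_lt_iff_lt_add, div_lt_iff₀ (by linarith)] at h2
            have hJ : (0 : ℝ) < d.J := by exact_mod_cast d.J_pos
            have ht0 : (0 : ℝ) < t := by
              have : (0 : ℝ) ≤ (j : ι → ℕ) i * (L : ℝ) := by positivity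
              exact (mul_pos_iff_of_pos_left hJ).1 (by linarith)
            have hjJ : ((j : ι → ℕ) i : ℝ) + 1 ≤ d.J := by exact_mod_cast (d.seg _ j.2).1 i
            have htL : (t : ℝ) < L := lt_of_mul_lt_mul_left (by nlinarith) hJ.le
            have ht0' : 0 < t := by exact_mod_cast ht0
            have htL' : t < (L : ℤ) := by exact_mod_cast htL
            exact mem_image.2 ⟨⟨t.toNat, by omega⟩, mem_univ _, by simp; omega⟩)
        rw [sum_image fun a _ b _ hab => by simpa [Fin.val_inj] using hab] at key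
        have hterm : ∀ t : Fin L,
            (W ((d.J : ℝ) * d.ℓ i * (((((t : ℕ) : ℤ)) : ℝ) / M) / (m : ℕ) - (j : ι → ℕ) i) : ℂ) *
              ee (((((t : ℕ) : ℤ)) : ℝ) ^ 2 / (2 * M)
                - (y i - ((u i : ℕ) : ℝ) / d.ℓ i) * ((((t : ℕ) : ℤ)) : ℝ))
            = (W ((d.J : ℝ) * (t : ℕ) / L - (j : ι → ℕ) i) : ℂ) *
              fe (((m : ℕ) : ℝ) * (t : ℕ) ^ 2 / (2 * d.ℓ i * L)
                - (y i - ((u i : ℕ) : ℝ) / d.ℓ i) * (t : ℕ)) := fun t => by
          rw [hMc, fe_eq_ee, Int.cast_natCast]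
          congr 2
          · congr 1; field_simp
          · field_simp
        simp only [hterm] at key
        have hsi : s i = Real.sqrt M := by rw [hs, hM]
        have hxa : xv i - av i = ((∑ t : Fin L, (W ((d.J : ℝ) * (t : ℕ) / L - (j : ι → ℕ) i) : ℂ) *
            fe (((m : ℕ) : ℝ) * (t : ℕ) ^ 2 / (2 * d.ℓ i * L)
              - (y i - ((u i : ℕ) : ℝ) / d.ℓ i) * (t : ℕ)))
            - gauss0 M * ee (-((M : ℝ) * lift d L j m u θ i ^ 2) / 2)
              * (W ((d.J : ℝ) * d.ℓ i * lift d L j m u θ i / (m : ℕ) - (j : ι → ℕ) i) : ℂ)) / (s i : ℂ) := by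
          simp only [hxv, hav, ← hM, fe_eq_ee]
          ring
        rw [hxa, norm_div, Complex.norm_real, Real.norm_eq_abs, abs_of_pos (hs0 i), hsi]
        refine (div_le_div_of_nonneg_right key (Real.sqrt_nonneg _)).trans ?_
        rw [div_div, Real.mul_self_sqrt hM'.le, hMc]
        have hC1 : Cc j m i ≤ ∑ j, ∑ m, ∑ i, Cc j m i :=
          ((single_le_sum (fun i' _ => hCc0 j m i') (mem_univ i)).trans
            (single_le_sum (f := fun m' => ∑ i', Cc j m' i')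
              (fun m' _ => sum_nonneg fun i' _ => hCc0 j m' i') (mem_univ m))).trans
            (single_le_sum (f := fun j' => ∑ m', ∑ i', Cc j' m' i')
              (fun j' _ => sum_nonneg fun m' _ => sum_nonneg fun i' _ => hCc0 j' m' i') (mem_univ j))
        have hmJ : ((m : ℕ) : ℝ) ≤ d.J := by
          exact_mod_cast Nat.le_of_dvd d.J_pos (d.S_dvd _ m.2).2
        have hl1 : (1 : ℝ) ≤ d.ℓ i := by exact_mod_cast d.ℓ_pos i
        rw [hCm, div_div_eq_mul_div, div_le_div_iff₀ (by positivity) (by linarith)]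
        nlinarith [mul_le_mul hC1 hmJ hm0.le ((hCc0 j m i).trans hC1),
          mul_le_mul_of_nonneg_left hl1 (mul_nonneg ((hCc0 j m i).trans hC1) (Nat.cast_nonneg (α := ℝ) d.J))]
      have ha1 : ∀ i, ‖av i‖ ≤ 1 := fun i => by
        obtain ⟨hM0, hMev, -⟩ := modulus_facts d hL hdvd m.2 i
        rw [hav, norm_mul, norm_mul, norm_div, norm_gauss0 hM0 hMev, Complex.norm_real,
          Real.norm_eq_abs, abs_of_pos (hs0 i), fe_eq_ee, norm_ee, mul_one, div_self (hs0 i).ne',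
          one_mul, Complex.norm_real, Real.norm_eq_abs, abs_of_nonneg (hW01 _).1]
        exact (hW01 _).2
      have e1 : (∏ i, ∑ t : Fin L, (W ((d.J : ℝ) * (t : ℕ) / L - (j : ι → ℕ) i) : ℂ) *
            fe (((m : ℕ) : ℝ) * (t : ℕ) ^ 2 / (2 * d.ℓ i * L)
              - (y i - ((u i : ℕ) : ℝ) / d.ℓ i) * (t : ℕ)))
          = ((∏ i, s i : ℝ) : ℂ) * ∏ i, xv i := by
        rw [Complex.ofReal_prod, ← prod_mul_distrib]
        refine prod_congr rfl fun i _ => ?_
        rw [hxv, mul_div_cancel₀]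
        exact Complex.ofReal_ne_zero.2 (hs0 i).ne'
      have e2 : (∏ i, (gauss0 (d.ℓ i * L / (m : ℕ)) / (Real.sqrt ((d.ℓ i * L / (m : ℕ) : ℕ) : ℝ) : ℂ))) *
            fe (chirpPhase d L j m u θ) * (env d μ L j m u θ : ℂ) = ∏ i, av i := by
        have : fe (chirpPhase d L j m u θ)
            = ∏ i, fe (-(((d.ℓ i * L / (m : ℕ) : ℕ) : ℝ) * lift d L j m u θ i ^ 2) / 2) := by
          simp only [fe, chirpPhase, modulus, ← Complex.exp_sum]
          congr 1
          rw [← sum_neg_distrib, mul_sum, Complex.ofReal_sum, sum_mul]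
          exact sum_congr rfl fun i _ => by push_cast; ring
        rw [this, env, Complex.ofReal_prod, ← prod_mul_distrib, ← prod_mul_distrib]
      rw [e1, e2, ← mul_sub, norm_mul, Complex.norm_real, Real.norm_eq_abs,
        abs_of_nonneg (prod_nonneg fun i _ => (hs0 i).le)]
      refine mul_le_mul_of_nonneg_left ?_ (prod_nonneg fun i _ => (hs0 i).le)
      have hCL : Cm / L ≤ Cm := div_le_self hCm0 hL'
      refine (norm_prod_sub_prod_le univ xv av (by positivity) (fun i _ => ha1 i)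
        (fun i _ => hdiff i)).trans ?_
      rw [card_univ, mul_div_assoc', div_mul_eq_mul_div]
      exact div_le_div_of_nonneg_right (mul_le_mul_of_nonneg_left
        (pow_le_pow_left₀ (by positivity) (by linarith) _) (by positivity)) (by linarith)
    have hscale : ∀ m ∈ d.S,
        sN * (Real.sqrt 2 * ∏ i, Real.sqrt ((d.ℓ i : ℝ) / (m : ℕ)))
          = ∏ i, Real.sqrt ((d.ℓ i * L / m : ℕ) : ℝ) ∧
        sN * Real.sqrt 2 = ∏ _i : ι, Real.sqrt L := by
      intro m hm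
      have h2 : sN * Real.sqrt 2 = ∏ _i : ι, Real.sqrt L := by
        rw [hsN, ← Real.sqrt_mul (Nat.cast_nonneg _),
          ← Real.sqrt_prod _ fun i _ => Nat.cast_nonneg _, prod_const, card_univ,
          Nat.cast_div (dvd_pow (even_iff_two_dvd.1 hev) (by have := d.two_le; omega)) two_ne_zero]
        push_cast
        rw [div_mul_cancel₀ _ two_ne_zero]
      refine ⟨?_, h2⟩
      rw [← mul_assoc, h2, ← prod_mul_distrib]
      refine prod_congr rfl fun i _ => ?_
      rw [(modulus_facts d hL hdvd hm i).2.2, ← Real.sqrt_mul (Nat.cast_nonneg _)]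
      congr 1; ring
    simp only [plusSum, plusF, hexp, mul_sum]
    simp only [← sum_sub_distrib]
    calc ‖∑ j ∈ d.T, ∑ m ∈ d.S, ∑ u : Res d.ℓ, _‖
        ≤ ∑ j ∈ d.T, ∑ m ∈ d.S, ∑ u : Res d.ℓ, sN * height d j m u *
            ((Fintype.card ι : ℝ) * Cm * (1 + Cm) ^ Fintype.card ι / L) := by
          refine norm_sum_le_of_le _ fun j hj => norm_sum_le_of_le _ fun m hm =>
            norm_sum_le_of_le _ fun u _ => ?_
          obtain ⟨hs1, hs2⟩ := hscale m hm
          have e3 : (sN : ℂ) * (amp d L j m u * fe (chirpPhase d L j m u θ) * (env d μ L j m u θ : ℂ))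
              = d.c m * coef (d.g j m) u * (((∏ i, Real.sqrt ((d.ℓ i * L / m : ℕ) : ℝ) : ℝ) : ℂ)
                * ((∏ i, (gauss0 (d.ℓ i * L / m) / (Real.sqrt ((d.ℓ i * L / m : ℕ) : ℝ) : ℂ))) *
                  fe (chirpPhase d L j m u θ) * (env d μ L j m u θ : ℂ))) := by
            have hg : ((∏ i, Real.sqrt ((d.ℓ i * L / m : ℕ) : ℝ) : ℝ) : ℂ)
                * (∏ i, (gauss0 (d.ℓ i * L / m) / (Real.sqrt ((d.ℓ i * L / m : ℕ) : ℝ) : ℂ)))
                = ∏ i, gauss0 (d.ℓ i * L / m) := by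
              rw [Complex.ofReal_prod, ← prod_mul_distrib]
              refine prod_congr rfl fun i _ => mul_div_cancel₀ _ (Complex.ofReal_ne_zero.2 ?_)
              exact (Real.sqrt_pos.2 (by exact_mod_cast (modulus_facts d hL hdvd hm i).1)).ne'
            have hq : (∏ i : ι, (gauss0 (modulus d L m i) / (Real.sqrt L : ℂ)))
                = (∏ i, gauss0 (d.ℓ i * L / m)) / ((∏ _i : ι, Real.sqrt L : ℝ) : ℂ) := by
              rw [prod_div_distrib, Complex.ofReal_prod]; rfl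
            have hne : ((∏ _i : ι, Real.sqrt L : ℝ) : ℂ) ≠ 0 :=
              Complex.ofReal_ne_zero.2 (prod_pos fun _ _ => Real.sqrt_pos.2 (by linarith)).ne'
            simp only [← mul_assoc]
            rw [mul_assoc (d.c m * coef (d.g j m) u) _ (∏ i, _ / _), hg, amp, hq]
            have hs3 : (sN : ℂ) * (Real.sqrt 2 : ℂ) = ((∏ _i : ι, Real.sqrt L : ℝ) : ℂ) := by
              exact_mod_cast hs2
            field_simp
            rw [← hs3]; ring
          rw [e3, ← mul_sub, norm_mul]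
          refine (mul_le_mul_of_nonneg_left (hone ⟨j, hj⟩ ⟨m, hm⟩ u) (norm_nonneg _)).trans
            (le_of_eq ?_)
          rw [← hs1, height, norm_mul]
          ring
      _ = B / L * sN := by
          rw [hB]
          simp only [mul_sum, sum_div, sum_mul]
          exact sum_congr rfl fun j _ => sum_congr rfl fun m _ => sum_congr rfl fun u _ => by ring
  have h2 := hmain (-θ)
  rw [← RCLike.norm_conj, map_sub, map_mul, Complex.conj_ofReal] at h2
  calc ‖plusSum d W L (fun i => (L : ℝ) ^ expo d i * θ)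
        + conj (plusSum d W L (fun i => (L : ℝ) ^ expo d i * -θ))
        - (sN : ℂ) * (plusF d μ L θ + conj (plusF d μ L (-θ)))‖
      = ‖(plusSum d W L (fun i => (L : ℝ) ^ expo d i * θ) - (sN : ℂ) * plusF d μ L θ)
          + (conj (plusSum d W L (fun i => (L : ℝ) ^ expo d i * -θ))
            - (sN : ℂ) * conj (plusF d μ L (-θ)))‖ := by
        congr 1; ring
    _ ≤ B / L * sN + B / L * sN := (norm_add_le _ _).trans (add_le_add (hmain θ) h2)
    _ = 2 * B / L * sN := by ring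
    _ ≤ ε * sN := mul_le_mul_of_nonneg_right hBε hsN0

end Vale.Agent.P110.Exist.Analysis
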