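import Vale.Agent.P110.Exist.Analysis.Assemble
import Vale.Agent.P110.Exist.Analysis.Expand

/-! The analysis module: designs give cores. -/

namespace Vale.Agent.P110.Exist

theorem analysisGoal : AnalysisGoal :=
  Analysis.analysis_of fun d => Analysis.expandStatement d

end Vale.Agent.P110.Exist
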