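import Vale.Agent.P110.Exist.Analysis.Boxes

/-! The envelope and node data of a design (`PROOF.md`, section N, steps 2 to 4). -/

namespace Vale.Agent.P110.Exist.Analysis

open Finset MeasureTheory
open scoped BigOperators ComplexConjugate

variable {κ : ℝ} {ι : Type} [Fintype ι] [DecidableEq ι] (d : Design κ ι)

/-- The sum over the active boxes at `θ`. -/
noncomputable def sumAct (L : ℕ) (θ : ℝ) (F : Box d → ℝ → ℝ) : ℝ :=
  open scoped Classical in ∑ b ∈ boxes d, if Act d L b θ then F b θ else 0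

lemma sumAct_eq {L : ℕ} {b : Box d} (hb : b ∈ boxes d) {θ : ℝ} (h : Act d L b θ)
    (F : Box d → ℝ → ℝ) : sumAct d L θ F = F b θ := by
  classical
  rw [sumAct, sum_eq_single b]
  · exact if_pos h
  · intro b' hb' hne
    exact if_neg fun h' => hne (act_unique d hb' hb h' h)
  · exact fun h' => absurd hb h'

lemma sumAct_mirror {L : ℕ} {b : Box d} (hb : b ∈ boxes d) {θ : ℝ} (h : Act d L b θ)
    (F : Box d → ℝ → ℝ) : sumAct d L (-θ) F = 0 := by
  classical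
  exact sum_eq_zero fun b' hb' => if_neg fun h' => act_mirror d hb hb' h h'

lemma sumAct_periodic {L : ℕ} (θ : ℝ) (n : ℤ) {F : Box d → ℝ → ℝ}
    (hF : ∀ b (θ : ℝ) (n : ℤ), F b (θ + n) = F b θ) :
    sumAct d L (θ + n) F = sumAct d L θ F := by
  classical
  exact sum_congr rfl fun b _ => by simp only [act_periodic, hF]

lemma phaseB_periodic (L : ℕ) (b : Box d) (θ : ℝ) (n : ℤ) :
    phaseB d L b (θ + n) = phaseB d L b θ := by
  simp only [phaseB, chirpPhase, lift_periodic]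

lemma slopeB_periodic (L : ℕ) (b : Box d) (θ : ℝ) (n : ℤ) :
    slopeB d L b (θ + n) = slopeB d L b θ := by
  simp only [slopeB, lift_periodic]

/-- The phase at a node. -/
noncomputable def nodeVal (L M : ℕ) (k : ℤ) : ℝ :=
  sumAct d L ((k : ℝ) / M) (phaseB d L) - sumAct d L (-((k : ℝ) / M)) (phaseB d L)

/-- The slope at a node. -/
noncomputable def nodeSlope (L M : ℕ) (k : ℤ) : ℝ :=
  sumAct d L ((k : ℝ) / M) (slopeB d L) + sumAct d L (-((k : ℝ) / M)) (slopeB d L)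

lemma nodeVal_neg (L M : ℕ) (k : ℤ) : nodeVal d L M (-k) + nodeVal d L M k = 0 := by
  simp [nodeVal, neg_div]

lemma nodeSlope_neg (L M : ℕ) (k : ℤ) : nodeSlope d L M (-k) = nodeSlope d L M k := by
  simp [nodeSlope, neg_div]; ring

lemma node_periodic {L M : ℕ} (hM : 0 < M) (k : ℤ) :
    nodeVal d L M (k + M) = nodeVal d L M k ∧ nodeSlope d L M (k + M) = nodeSlope d L M k := by
  have hM' : (M : ℝ) ≠ 0 := Nat.cast_ne_zero.2 hM.ne'
  have e1 : ((k + M : ℤ) : ℝ) / M = (k : ℝ) / M + ((1 : ℤ) : ℝ) := by push_cast; field_simp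
  have e2 : -(((k + M : ℤ) : ℝ) / M) = -((k : ℝ) / M) + ((-1 : ℤ) : ℝ) := by
    rw [e1]; push_cast; ring
  simp only [nodeVal, nodeSlope, e2]
  simp only [e1, sumAct_periodic d _ _ (phaseB_periodic d L),
    sumAct_periodic d _ _ (slopeB_periodic d L), and_self]

lemma nodeSlope_range {L M : ℕ} (hL1 : 1 ≤ L) (hL : 2 * d.J * ∏ i, d.ℓ i ∣ L) (k : ℤ) :
    -((L : ℝ) ^ Fintype.card ι / 2 +
        Fintype.card ι * (L : ℝ) ^ (Fintype.card ι - 1)) ≤ nodeSlope d L M k ∧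
      nodeSlope d L M k ≤ 0 := by
  classical
  have h0 : -((L : ℝ) ^ Fintype.card ι / 2 +
      Fintype.card ι * (L : ℝ) ^ (Fintype.card ι - 1)) ≤ 0 := neg_nonpos.2 (by positivity)
  by_cases h : ∃ b ∈ boxes d, Act d L b ((k : ℝ) / M)
  · obtain ⟨b, hb, hact⟩ := h
    rw [nodeSlope, sumAct_eq d hb hact, sumAct_mirror d hb hact, add_zero]
    exact slopeB_range d hL1 hL hb hact
  · have h1 : sumAct d L ((k : ℝ) / M) (slopeB d L) = 0 :=
      sum_eq_zero fun b hb => if_neg fun h' => h ⟨b, hb, h'⟩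
    rw [nodeSlope, h1, zero_add]
    by_cases h' : ∃ b ∈ boxes d, Act d L b (-((k : ℝ) / M))
    · obtain ⟨b, hb, hact⟩ := h'
      rw [sumAct_eq d hb hact]
      exact slopeB_range d hL1 hL hb hact
    · rw [show sumAct d L (-((k : ℝ) / M)) (slopeB d L) = 0 from
        sum_eq_zero fun b hb => if_neg fun h'' => h' ⟨b, hb, h''⟩]
      exact ⟨h0, le_rfl⟩

lemma slope_move {L : ℕ} {b : Box d} {θ τ : ℝ}
    (h : ∀ i, lift d L b.1 b.2.1 b.2.2 τ i
      = lift d L b.1 b.2.1 b.2.2 θ i + (L : ℝ) ^ expo d i * (τ - θ)) :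
    slopeB d L b τ = slopeB d L b θ -
      (∑ i, (modulus d L b.2.1 i : ℝ) * ((L : ℝ) ^ expo d i) ^ 2) * (τ - θ) := by
  have key : ∑ i, (modulus d L b.2.1 i : ℝ) * lift d L b.1 b.2.1 b.2.2 τ i * (L : ℝ) ^ expo d i
      = ∑ i, ((modulus d L b.2.1 i : ℝ) * lift d L b.1 b.2.1 b.2.2 θ i * (L : ℝ) ^ expo d i
        + (modulus d L b.2.1 i : ℝ) * ((L : ℝ) ^ expo d i) ^ 2 * (τ - θ)) :=
    sum_congr rfl fun i _ => by rw [h i]; ring
  rw [sum_add_distrib, ← sum_mul] at key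
  simp only [slopeB, key]
  ring

/-- The node data reproduce the phase of a box next to its support. -/
lemma cell_exact {μ δ : ℝ} (hμ : 0 < μ) {L M : ℕ} (hL : 0 < L) (hM : 0 < M)
    (hMδ : 1 / (M : ℝ) ≤ δ) {b : Box d} (hb : b ∈ boxes d)
    (hδ : ∀ i, scl d b i * ((L : ℝ) ^ (Fintype.card ι - 1) * δ) < μ) {θ : ℝ}
    (h : envB d μ L b θ ≠ 0) :
    ∃ (k : ℤ) (t : ℝ), 0 ≤ t ∧ t ≤ 1 / M ∧ θ = (k : ℝ) / M + t ∧
      (∃ n : ℤ, nodeVal d L M (k + 1) - nodeVal d L M k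
        - (nodeSlope d L M k + nodeSlope d L M (k + 1)) / (2 * M) = n) ∧
      nodeVal d L M k + nodeSlope d L M k * t
        + (nodeSlope d L M (k + 1) - nodeSlope d L M k) * M * t ^ 2 / 2 = phaseB d L b θ := by
  have hM' : (0 : ℝ) < M := Nat.cast_pos.2 hM
  set k := ⌊θ * M⌋
  have h1 := Int.floor_le (θ * M)
  have h2 := Int.lt_floor_add_one (θ * M)
  set τ₀ := (k : ℝ) / M with hτ₀
  set τ₁ := ((k + 1 : ℤ) : ℝ) / M with hτ₁
  have hτ : τ₁ = τ₀ + 1 / M := by rw [hτ₁, hτ₀]; push_cast; ring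
  have ht0 : 0 ≤ θ - τ₀ := by rw [sub_nonneg, hτ₀, div_le_iff₀ hM']; exact h1
  have ht1 : θ - τ₀ ≤ 1 / M := by
    rw [sub_le_iff_le_add', ← hτ, hτ₁, le_div_iff₀ hM']; push_cast; exact h2.le
  obtain ⟨hA0, hl0⟩ := move_inside d hμ hL hb hδ h (τ := τ₀) (by
    rw [abs_sub_comm, abs_of_nonneg ht0]; linarith)
  obtain ⟨hA1, hl1⟩ := move_inside d hμ hL hb hδ h (τ := τ₁) (by
    rw [abs_of_nonneg (by linarith)]; linarith)
  have v0 : nodeVal d L M k = phaseB d L b τ₀ := by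
    rw [nodeVal, sumAct_eq d hb hA0, sumAct_mirror d hb hA0, sub_zero]
  have v1 : nodeVal d L M (k + 1) = phaseB d L b τ₁ := by
    rw [nodeVal, sumAct_eq d hb hA1, sumAct_mirror d hb hA1, sub_zero]
  have s0 : nodeSlope d L M k = slopeB d L b τ₀ := by
    rw [nodeSlope, sumAct_eq d hb hA0, sumAct_mirror d hb hA0, add_zero]
  have s1 : nodeSlope d L M (k + 1) = slopeB d L b τ₁ := by
    rw [nodeSlope, sumAct_eq d hb hA1, sumAct_mirror d hb hA1, add_zero]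
  have m1 : ∀ i, lift d L b.1 b.2.1 b.2.2 τ₁ i
      = lift d L b.1 b.2.1 b.2.2 τ₀ i + (L : ℝ) ^ expo d i * (τ₁ - τ₀) := fun i => by
    rw [hl1 i, hl0 i]; ring
  have m2 : ∀ i, lift d L b.1 b.2.1 b.2.2 θ i
      = lift d L b.1 b.2.1 b.2.2 τ₀ i + (L : ℝ) ^ expo d i * (θ - τ₀) := fun i => by
    rw [hl0 i]; ring
  refine ⟨k, θ - τ₀, ht0, ht1, by rw [hτ₀]; ring, ⟨0, ?_⟩, ?_⟩
  · rw [v0, v1, s0, s1, phase_taylor d m1, hτ]
    push_cast; ring
  · rw [v0, s0, s1, phase_taylor d m2, slope_move d m1, slope_move d m2, hτ]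
    field_simp
    ring

/-- The envelope of the positive harmonics. -/
noncomputable def plusR (μ : ℝ) (L : ℕ) (θ : ℝ) : ℝ :=
  ∑ b ∈ boxes d, heightB d b * envB d μ L b θ

/-- The envelope `r`. -/
noncomputable def rFun (μ : ℝ) (L : ℕ) (θ : ℝ) : ℝ := plusR d μ L θ + plusR d μ L (-θ)

lemma heightB_nonneg (b : Box d) : 0 ≤ heightB d b := by
  unfold heightB height; positivity

lemma heightB_sq {b : Box d} (hb : b ∈ boxes d) :
    heightB d b ^ 2 = 2 * ‖d.c b.2.1‖ ^ 2 * ‖coef (d.g b.1 b.2.1) b.2.2‖ ^ 2 *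
      ∏ i, ((d.ℓ i : ℝ) / (b.2.1 : ℝ)) := by
  rw [heightB, height, mul_pow, mul_pow, mul_pow, Real.sq_sqrt (by norm_num), ← prod_pow]
  congr 1
  exact prod_congr rfl fun i _ => Real.sq_sqrt (by have := m_pos d hb; positivity)

lemma heightB_le (hκ : 0 ≤ κ) {b : Box d} (hb : b ∈ boxes d) : heightB d b ≤ 1 + κ := by
  obtain ⟨hT, hS, -⟩ := (mem_boxes d).1 hb
  refine le_of_pow_le_pow_left₀ two_ne_zero (by linarith) ?_
  rw [heightB_sq d hb]
  exact d.bound _ hT _ hS _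

lemma plusR_nonneg (μ : ℝ) (L : ℕ) (θ : ℝ) : 0 ≤ plusR d μ L θ :=
  sum_nonneg fun b _ => mul_nonneg (heightB_nonneg d b) (envB_nonneg d μ L b θ)

lemma plusR_act {μ : ℝ} (hμ : 0 < μ) {L : ℕ} {b : Box d} (hb : b ∈ boxes d) {θ : ℝ}
    (h : envB d μ L b θ ≠ 0) :
    plusR d μ L θ = heightB d b * envB d μ L b θ ∧ plusR d μ L (-θ) = 0 := by
  constructor
  · refine sum_eq_single b (fun b' hb' hne => ?_) fun h' => absurd hb h'
    rw [mul_eq_zero]; right
    by_contra h'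
    exact hne (act_unique d hb' hb (act_of_envB d hμ h') (act_of_envB d hμ h))
  · refine sum_eq_zero fun b' hb' => ?_
    rw [mul_eq_zero]; right
    by_contra h'
    exact act_mirror d hb hb' (act_of_envB d hμ h) (act_of_envB d hμ h')

lemma rFun_le (hκ : 0 ≤ κ) {μ : ℝ} (hμ : 0 < μ) (L : ℕ) (θ : ℝ) : rFun d μ L θ ≤ 1 + κ := by
  have key : ∀ θ, (∃ b ∈ boxes d, envB d μ L b θ ≠ 0) → rFun d μ L θ ≤ 1 + κ := by
    rintro θ ⟨b, hb, h⟩
    obtain ⟨h1, h2⟩ := plusR_act d hμ hb h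
    rw [rFun, h1, h2, add_zero]
    exact (mul_le_of_le_one_right (heightB_nonneg d b) (envB_le_one d μ L b θ)).trans
      (heightB_le d hκ hb)
  by_cases h : ∃ b ∈ boxes d, envB d μ L b θ ≠ 0
  · exact key θ h
  · by_cases h' : ∃ b ∈ boxes d, envB d μ L b (-θ) ≠ 0
    · have := key (-θ) h'
      rw [rFun, neg_neg] at this
      rw [rFun]; linarith
    · push Not at h h'
      rw [rFun, plusR, plusR, sum_eq_zero fun b hb => by rw [h b hb, mul_zero],
        sum_eq_zero fun b hb => by rw [h' b hb, mul_zero]]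
      linarith

lemma rFun_periodic (μ : ℝ) (L : ℕ) (θ : ℝ) :
    rFun d μ L (θ + 1) = rFun d μ L θ ∧ rFun d μ L (-θ) = rFun d μ L θ := by
  have h : ∀ (θ : ℝ) (n : ℤ), plusR d μ L (θ + n) = plusR d μ L θ := fun θ n => by
    simp only [plusR, envB_periodic]
  refine ⟨?_, by rw [rFun, rFun, neg_neg, add_comm]⟩
  have h1 := h θ 1
  have h2 := h (-θ) (-1)
  push_cast at h1 h2
  rw [rFun, rFun, h1, show -(θ + 1) = -θ + -1 by ring, h2]

/-- No box is active where `2θ` is close to an integer. -/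
lemma rFun_zero {μ δ : ℝ} (hμ : 0 < μ) {L : ℕ} (hL : 0 < L)
    (hδ : ∀ b ∈ boxes d, ∀ i, scl d b i * ((L : ℝ) ^ (Fintype.card ι - 1) * δ) < μ)
    {θ : ℝ} {n : ℤ} (h : |2 * θ - n| ≤ δ) : rFun d μ L θ = 0 := by
  have key : ∀ θ : ℝ, ∀ n : ℤ, |2 * θ - n| ≤ δ → plusR d μ L θ = 0 := by
    intro θ n h
    refine sum_eq_zero fun b hb => ?_
    rw [mul_eq_zero]; right
    by_contra he
    have hA := (move_inside d hμ hL hb (hδ b hb) he (τ := -θ + n) (by
      rw [show -θ + (n : ℝ) - θ = -(2 * θ - n) by ring, abs_neg]; exact h)).1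
    exact act_mirror d hb hb (act_of_envB d hμ he) ((act_periodic d L b (-θ) n).1 hA)
  rw [rFun, key θ n h, key (-θ) (-n) (by
    rw [← abs_neg]; push_cast; rw [show -(2 * -θ - -(n : ℝ)) = 2 * θ - n by ring]; exact h),
    add_zero]

lemma rFun_lip {μ K : ℝ} (hμ : 0 < μ) (hK : 0 ≤ K)
    (hwin : ∀ x y, |win μ x - win μ y| ≤ K * |x - y|) {L : ℕ} (hL : 0 < L) (θ φ : ℝ) :
    |rFun d μ L θ - rFun d μ L φ| ≤
      2 * (∑ b ∈ boxes d, heightB d b * ∑ i, 2 * (K * scl d b i)) *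
        (L : ℝ) ^ (Fintype.card ι - 1) * |θ - φ| := by
  have key : ∀ θ φ, |plusR d μ L θ - plusR d μ L φ| ≤
      (∑ b ∈ boxes d, heightB d b * ∑ i, 2 * (K * scl d b i)) *
        (L : ℝ) ^ (Fintype.card ι - 1) * |θ - φ| := by
    intro θ φ
    rw [plusR, plusR, ← sum_sub_distrib, sum_mul, sum_mul]
    refine (abs_sum_le_sum_abs _ _).trans (sum_le_sum fun b hb => ?_)
    rw [← mul_sub, abs_mul, abs_of_nonneg (heightB_nonneg d b), mul_assoc, mul_assoc]
    exact mul_le_mul_of_nonneg_left ((envB_lip d hμ hK hwin hL hb θ φ).trans_eq (mul_assoc _ _ _))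
      (heightB_nonneg d b)
  rw [rFun, rFun, show plusR d μ L θ + plusR d μ L (-θ) - (plusR d μ L φ + plusR d μ L (-φ))
    = (plusR d μ L θ - plusR d μ L φ) + (plusR d μ L (-θ) - plusR d μ L (-φ)) by ring]
  refine (abs_add_le _ _).trans ?_
  have h1 := key θ φ
  have h2 := key (-θ) (-φ)
  rw [show -θ - -φ = -(θ - φ) by ring, abs_neg] at h2
  linarith

lemma plusF_eq {μ : ℝ} {L : ℕ} (hL0 : 0 < L) (hL : 2 * d.J * ∏ i, d.ℓ i ∣ L) (θ : ℝ) :
    plusF d μ L θ =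
      ∑ b ∈ boxes d, ((heightB d b * envB d μ L b θ : ℝ) : ℂ) * fe (phaseB d L b θ) := by
  have e : ∀ b ∈ boxes d, ((heightB d b * envB d μ L b θ : ℝ) : ℂ) * fe (phaseB d L b θ)
      = amp d L b.1 b.2.1 b.2.2 * fe (chirpPhase d L b.1 b.2.1 b.2.2 θ)
        * (env d μ L b.1 b.2.1 b.2.2 θ : ℂ) := fun b hb => by
    rw [amp_fe d hL0 hL hb, env_eq d hb]; push_cast; ring
  rw [sum_congr rfl e, boxes, sum_filter_of_ne, sum_product, plusF]
  · exact sum_congr rfl fun j _ => by rw [sum_product]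
  · intro b _ hne hc
    exact hne (by simp [amp, hc])

/-- The main term is `r U`. -/
lemma mainF_eq {μ δ : ℝ} (hμ : 0 < μ) {L M : ℕ} (hL0 : 0 < L)
    (hL : 2 * d.J * ∏ i, d.ℓ i ∣ L) (hM : 0 < M) (hMδ : 1 / (M : ℝ) ≤ δ)
    (hδ : ∀ b ∈ boxes d, ∀ i, scl d b i * ((L : ℝ) ^ (Fintype.card ι - 1) * δ) < μ)
    {U : ℝ → ℂ} (hUsym : ∀ t, U (-t) = conj (U t))
    (hU : ∀ k : ℤ, (∃ n : ℤ, nodeVal d L M (k + 1) - nodeVal d L M k
        - (nodeSlope d L M k + nodeSlope d L M (k + 1)) / (2 * M) = n) →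
      ∀ t : ℝ, 0 ≤ t → t ≤ 1 / M → U ((k : ℝ) / M + t) = fe (nodeVal d L M k
        + nodeSlope d L M k * t
        + (nodeSlope d L M (k + 1) - nodeSlope d L M k) * M * t ^ 2 / 2))
    (θ : ℝ) : mainF d μ L θ = (rFun d μ L θ : ℂ) * U θ := by
  have key : ∀ θ b, b ∈ boxes d → envB d μ L b θ ≠ 0 →
      plusF d μ L θ = (rFun d μ L θ : ℂ) * U θ ∧ plusF d μ L (-θ) = 0 := by
    intro θ b hb h
    obtain ⟨k, t, ht0, ht1, hθ, hcons, heq⟩ := cell_exact d hμ hL0 hM hMδ hb (hδ b hb) h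
    have hUθ : U θ = fe (phaseB d L b θ) := by
      conv_lhs => rw [hθ]
      rw [hU k hcons t ht0 ht1, heq]
    obtain ⟨h1, h2⟩ := plusR_act d hμ hb h
    constructor
    · rw [plusF_eq d hL0 hL, hUθ, rFun, h1, h2, add_zero, sum_eq_single b]
      · intro b' hb' hne
        have : envB d μ L b' θ = 0 := by
          by_contra h'
          exact hne (act_unique d hb' hb (act_of_envB d hμ h') (act_of_envB d hμ h))
        simp [this]
      · exact fun h' => absurd hb h'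
    · rw [plusF_eq d hL0 hL]
      refine sum_eq_zero fun b' hb' => ?_
      have : envB d μ L b' (-θ) = 0 := by
        by_contra h'
        exact act_mirror d hb hb' (act_of_envB d hμ h) (act_of_envB d hμ h')
      simp [this]
  by_cases h : ∃ b ∈ boxes d, envB d μ L b θ ≠ 0
  · obtain ⟨b, hb, hne⟩ := h
    obtain ⟨h1, h2⟩ := key θ b hb hne
    rw [mainF, h1, h2, map_zero, add_zero]
  · by_cases h' : ∃ b ∈ boxes d, envB d μ L b (-θ) ≠ 0
    · obtain ⟨b, hb, hne⟩ := h'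
      obtain ⟨h1, h2⟩ := key (-θ) b hb hne
      rw [neg_neg] at h2
      rw [mainF, h2, zero_add, h1, map_mul, Complex.conj_ofReal, hUsym, Complex.conj_conj,
        (rFun_periodic d μ L θ).2]
    · push Not at h h'
      rw [mainF, rFun, plusR, plusR, plusF_eq d hL0 hL, plusF_eq d hL0 hL,
        sum_eq_zero fun b hb => by simp [h b hb], sum_eq_zero fun b hb => by simp [h' b hb],
        sum_eq_zero fun b hb => by rw [h b hb, mul_zero],
        sum_eq_zero fun b hb => by rw [h' b hb, mul_zero]]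
      simp

/-! ### The mean square -/

lemma rFun_sq_ge (μ : ℝ) (L : ℕ) (θ : ℝ) :
    (∑ b ∈ boxes d, heightB d b ^ 2 * envB d μ L b θ ^ 2) +
      (∑ b ∈ boxes d, heightB d b ^ 2 * envB d μ L b (-θ) ^ 2) ≤ rFun d μ L θ ^ 2 := by
  have key : ∀ θ, ∑ b ∈ boxes d, heightB d b ^ 2 * envB d μ L b θ ^ 2 ≤ plusR d μ L θ ^ 2 := by
    intro θ
    simp only [← mul_pow]
    exact sum_sq_le_sq_sum_of_nonneg fun b _ =>
      mul_nonneg (heightB_nonneg d b) (envB_nonneg d μ L b θ)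
  have := mul_nonneg (plusR_nonneg d μ L θ) (plusR_nonneg d μ L (-θ))
  rw [rFun, add_sq]
  linarith [key θ, key (-θ)]

lemma height_mul_vol {b : Box d} (hb : b ∈ boxes d) :
    2 * (heightB d b ^ 2 * ∏ i, (scl d b i)⁻¹) =
      4 * ‖d.c b.2.1‖ ^ 2 * ‖coef (d.g b.1 b.2.1) b.2.2‖ ^ 2 /
        (d.J : ℝ) ^ Fintype.card ι := by
  have h1 : (∏ i, ((d.ℓ i : ℝ) / (b.2.1 : ℝ))) * ∏ i, (scl d b i)⁻¹
      = ((d.J : ℝ) ^ Fintype.card ι)⁻¹ := by
    rw [← prod_mul_distrib, ← inv_pow, ← card_univ, ← prod_const]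
    refine prod_congr rfl fun i _ => ?_
    have := m_pos d hb
    have := d.ℓ_pos i
    rw [scl]; field_simp
  rw [heightB_sq d hb, mul_assoc (2 * ‖d.c b.2.1‖ ^ 2 * _), h1]
  ring

lemma energy_boxes :
    ∑ j ∈ d.T, ∑ m ∈ d.S, 4 * ‖d.c m‖ ^ 2 * ∑ u, ‖coef (d.g j m) u‖ ^ 2
      = ∑ b ∈ boxes d, 4 * ‖d.c b.2.1‖ ^ 2 * ‖coef (d.g b.1 b.2.1) b.2.2‖ ^ 2 := by
  rw [boxes, sum_filter_of_ne, sum_product]
  · refine sum_congr rfl fun j _ => ?_
    rw [sum_product]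
    exact sum_congr rfl fun m _ => mul_sum _ _ _
  · intro b _ hne hc
    exact hne (by simp [hc])

lemma pwin_periodic (μ q x : ℝ) : pwin μ q (x + 1) = pwin μ q x := by
  simp [pwin, Int.fract_add_one]

lemma integral_pwin_sq {μ K q : ℝ} (hμ : 0 < μ) (hμ' : μ < 1 / 4) (hK : 0 ≤ K)
    (hwin : ∀ x y, |win μ x - win μ y| ≤ K * |x - y|) (hq : 1 ≤ q) (c : ℝ) :
    (1 - 4 * μ) * q⁻¹ ≤ ∫ x in (0 : ℝ)..1, pwin μ q (x - c) ^ 2 := by
  have hq0 : 0 < q := by linarith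
  have hcont : Continuous fun x => pwin μ q x ^ 2 :=
    ((LipschitzWith.of_dist_le' fun x y => by
      simpa [Real.dist_eq] using pwin_lip hμ hK hwin hq x y).continuous).pow 2
  rw [intervalIntegral.integral_comp_sub_right (fun x => pwin μ q x ^ 2)]
  have hper : Function.Periodic (fun x => pwin μ q x ^ 2) 1 := fun x => by
    simp only [pwin_periodic]
  rw [zero_sub, sub_eq_neg_add 1 c, hper.intervalIntegral_add_eq (-c) 0, zero_add]
  have hlo : 2 * μ / q ≤ (1 - 2 * μ) / q := by gcongr; linarith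
  have hhi : (1 - 2 * μ) / q < 1 := by rw [div_lt_one hq0]; linarith
  have h : (∫ _x in (2 * μ / q)..((1 - 2 * μ) / q), (1 : ℝ))
      ≤ ∫ x in (2 * μ / q)..((1 - 2 * μ) / q), pwin μ q x ^ 2 := by
    refine intervalIntegral.integral_mono_on hlo intervalIntegrable_const
      (hcont.intervalIntegrable _ _) fun x hx => ?_
    have hx0 : 0 ≤ x := le_trans (by positivity) hx.1
    rw [pwin, Int.fract_eq_self.2 ⟨hx0, lt_of_le_of_lt hx.2 hhi⟩,
      win_eq_one hμ (by have := (div_le_iff₀ hq0).1 hx.1; linarith)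
        (by have := (le_div_iff₀ hq0).1 hx.2; linarith), one_pow]
  have h2 : ∫ x in (2 * μ / q)..((1 - 2 * μ) / q), pwin μ q x ^ 2
      ≤ ∫ x in (0 : ℝ)..1, pwin μ q x ^ 2 :=
    intervalIntegral.integral_mono_interval (by positivity) hlo hhi.le
      (ae_of_all _ fun x => sq_nonneg _) (hcont.intervalIntegrable _ _)
  rw [intervalIntegral.integral_const, smul_eq_mul, mul_one, ← sub_div] at h
  rw [show (1 - 4 * μ) * q⁻¹ = (1 - 2 * μ - 2 * μ) / q by ring]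
  linarith

end Vale.Agent.P110.Exist.Analysis
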